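import Vale.Agent.P287D.Ba.Sec
import Vale.Agent.P287D.Va.Cone

/-!
# P287D, bridge: log resolutions of nef and big b-divisors
-/

set_option linter.all false

open Set Filter Topology
open Vale.Agent.P297 (Place)
open Vale.Agent.P297Z.Pl
open Vale.Agent.P277Z Vale.Agent.P277Z.FI

noncomputable section

namespace Vale.Agent.P287D.Ba.Nb

variable {n : ℕ} {K : Type} [Field K] [Algebra ℂ K] {M M' : Mdl n 0 K} {D E G : Div K}
  {β : BD K} {s : Finset K}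

/-- a place which dominates a point, for finitely many functions -/
theorem dom (hM : M.Proj) (x : M.F) (hs : s.Nonempty)
    (h : ∀ f ∈ s, f ≠ 0 ∧ f ∈ M.O x ∧ M.val f x = 0) :
    ∃ P : Pl K, M.Ct x P.toPlace ∧ ∀ f ∈ s, 0 < P.ord f := by
  obtain ⟨M', m, hM', k⟩ := prin_ex hM (hs.imp fun f hf => ⟨hf, (h f hf).1⟩)
  obtain ⟨y, hy, e⟩ := m.img.ge x.2
  have b := (hbir hM hM' m).le ⟨y, hy⟩ x e
  obtain ⟨f, h1, h2, h3⟩ := k ⟨y, hy⟩
  obtain ⟨Q, h4, h5⟩ := (hloc hM').van ⟨y, hy⟩ f (b.1 (h f h1).2.1) h2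
    ((b.2 f (h f h1).2.1).self_of_nhds.trans (e.symm ▸ (h f h1).2.2))
  refine ⟨Bm.toPl hM' ⟨_, h4⟩, fun g hg => ct_of_on h4 g (b.1 hg), fun g hg => ?_⟩
  have := ord_nonneg_of_mem Q (ct_of_on h4 _ (h3 g hg))
  rw [ord_div Q (h g hg).1 h2] at this
  change 0 < Q.ord g
  omega

theorem bar_pos (hM : M.Proj) (hG : 0 ≤ G) {x : M.F} {P : Pl K} (h : M.Ct x P.toPlace)
    {Q : Place K} (h1 : 0 < G Q) (h2 : 0 < P.ord (M.eqn x Q)) : 0 < bar M G P := by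
  refine lt_of_lt_of_le ?_ (bar_mono hM (D := Finsupp.single Q (G Q)) (fun R => ?_) P)
  swap
  · by_cases e : R = Q
    · rw [e, Finsupp.single_eq_same]
    · rw [Finsupp.single_eq_of_ne e]; exact hG R
  rw [bar_ct hM h, ordAt_single]
  exact mul_pos h1 (Int.cast_pos.2 h2)

/-- finitely many effective divisors through a point have a common place -/
theorem dom_div (hM : M.Proj) (x : M.F) {ι : Type*} {T : Finset ι} (hT : T.Nonempty)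
    {G : ι → Div K} (h : ∀ i ∈ T, 0 ≤ G i ∧ ∃ Q, M.On x Q ∧ 0 < G i Q) :
    ∃ P : Pl K, M.Ct x P.toPlace ∧ ∀ i ∈ T, 0 < bar M (G i) P := by
  classical
  choose a Q b c using h
  obtain ⟨P, h1, h2⟩ := dom hM x (hT.attach.image fun i => M.eqn x (Q i.1 i.2)) fun f hf => by
    obtain ⟨i, -, rfl⟩ := Finset.mem_image.1 hf
    exact ⟨eqn_ne _ _, eqn_mem _ _, (eqn_gn (b i.1 i.2)).van⟩
  exact ⟨P, h1, fun i hi => bar_pos hM (a i hi) h1 (c i hi)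
    (h2 _ (Finset.mem_image.2 ⟨⟨i, hi⟩, Finset.mem_attach _ _, rfl⟩))⟩

/-- a system whose b-divisor descends is free -/
theorem free_of_mx (hM : M.Proj) (hD : M.Dv D) (hs : Nz s) (e : mx s = bar M D) (x : M.F) :
    ∃ f ∈ s, f ≠ 0 ∧ ∀ Q, M.On x Q → (Q.ord f : ℝ) + D Q = 0 := by
  classical
  by_contra! k
  have a : ∀ f ∈ s, f ∈ M.H0 D := fun f hf => (sec_bar hM).1 (e ▸ P287D.sec_of_mem hf)
  obtain ⟨P, -, h⟩ := dom_div hM x (T := s.filter (· ≠ 0)) (G := fun f => M.div f + D)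
    (hs.imp fun f h => Finset.mem_filter.2 h) fun f hf => by
      obtain ⟨h1, h2⟩ := Finset.mem_filter.1 hf
      obtain ⟨Q, h3, h4⟩ := k f h1 h2
      have h5 := div_add_nonneg (hloc hM) hD (a f h1) h2
      exact ⟨h5, Q, h3, (h5 Q).lt_of_ne' (by
        rwa [Finsupp.add_apply, div_apply (hloc hM) f ⟨x, h3⟩])⟩
  obtain ⟨f, h1, h2, h3⟩ := P.exists_mz hs
  have := h f (Finset.mem_filter.2 ⟨h1, h2⟩)
  rw [map_add, bar_div hM, ← e, Pi.add_apply, mx_apply, h3, dv_apply] at this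
  simp at this

theorem sys_zero (hM : M.Proj) (hs : ¬ Nz s) : sys M s = 0 :=
  (trc_mx hM s).unique hM (mx_of_not hs ▸ trc_zero)

theorem mx_le_sys (hM : M.Proj) (s : Finset K) : mx s ≤ bar M (sys M s) := by
  by_cases hs : Nz s
  · exact mx_le hM hs fun _ => mem_sys hM
  · rw [sys_zero hM hs, mx_of_not hs, map_zero]

theorem free_sys (hM : M.Proj) (e : mx s = bar M (sys M s)) (x : M.F) : M.Free (sys M s) x := by
  by_cases hs : Nz s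
  · obtain ⟨f, h1, h2⟩ := free_of_mx hM (dv_sys s) hs e x
    exact ⟨f, mem_sys hM h1, h2⟩
  · rw [sys_zero hM hs]; exact F5.free_zero x

theorem trc_sum {ι : Type*} (T : Finset ι) {Z : ι → BD K} {D : ι → Div K}
    (h : ∀ i ∈ T, Trc M (Z i) (D i)) : Trc M (∑ i ∈ T, Z i) (∑ i ∈ T, D i) :=
  ⟨dv_sum T fun i hi => (h i hi).1, fun P hP => by
    rw [Finset.sum_apply, Finsupp.finsetSum_apply]
    exact Finset.sum_congr rfl fun i hi => (h i hi).2 P hP⟩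

/-- the systems of a semiample b-divisor which descends descend -/
theorem smp_desc (hM : M.Proj) (hD : M.Dv D) {l : Finset K →₀ ℝ} (hl : 0 ≤ l)
    (e : bar M D = cmb l) : D = ∑ s ∈ l.support, l s • sys M s ∧
      ∀ s ∈ l.support, mx s = bar M (sys M s) := by
  have h1 : D = ∑ s ∈ l.support, l s • sys M s := (trc_bar hM hD).unique hM (by
    rw [e, cmb_sum]
    exact trc_sum _ fun s _ => (trc_mx hM s).smul _)
  refine ⟨h1, fun s hs => ?_⟩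
  have h2 : ∑ s ∈ l.support, l s • (bar M (sys M s) - mx s) = 0 := by
    simp only [smul_sub, Finset.sum_sub_distrib, ← cmb_sum, ← e, ← map_smul, ← map_sum, ← h1,
      sub_self]
  have h3 := (Finset.sum_eq_zero_iff_of_nonneg fun s _ =>
    smul_nonneg (hl s) (sub_nonneg.2 (mx_le_sys hM s))).1 h2 s hs
  exact (sub_eq_zero.1 ((smul_eq_zero.1 h3).resolve_left (Finsupp.mem_support_iff.1 hs))).symm

theorem smp_nef (hM : M.Proj) (hD : M.Dv D) (h : Smp (bar M D)) : M.Nef D := by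
  obtain ⟨l, hl, e⟩ := h
  obtain ⟨h1, h2⟩ := smp_desc hM hD hl e
  rw [h1]
  exact F5.nef_sum _ fun s hs => F5.nef_smul (hpos hM)
    ((hpos hM).free _ (int_sys hM s) (free_sys hM (h2 s hs))) (hl s)

theorem smp_amp (hM : M.Proj) (hD : M.Dv D) (h : M.Amp D) : Smp (bar M D) :=
  F5.amp_ind (hpos hM) (p := fun D => Smp (bar M D)) (fun _ _ a b => map_add (bar M) _ _ ▸ a.add b)
    (fun _ _ a b => map_smul (bar M) _ _ ▸ b.smul a.le)
    (fun _ a => let ⟨s, hs⟩ := mx_of_free hM a.free; hs ▸ smp_mx s) hD h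

theorem nef_bar (hM : M.Proj) (hD : M.Dv D) (h : M.Nef D) : Nef (bar M D) := by
  obtain ⟨H, hH⟩ := (pc hM).pol
  obtain ⟨s, hs⟩ := mx_of_free hM hH.free
  refine ⟨s, fun ε hε => ?_⟩
  rw [hs, ← map_smul, ← map_add]
  exact smp_amp hM (dv_add hD (FI.dv_smul hH.dv ε)) (h _ ((hpos hM).smul _ ε hε hH.amp))

/-- `β` descends to a nef divisor of `M` -/
def Dn (M : Mdl n 0 K) (β : BD K) : Prop := ∃ D, M.Dv D ∧ β = bar M D ∧ M.Nef D

theorem Dn.up (hM : M.Proj) (hM' : M'.Proj) (m : Mod M' M) (h : Dn M β) : Dn M' β :=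
  let ⟨D, _, b, c⟩ := h
  ⟨_, dv_pull D, b.trans (bar_pull hM hM' m D).symm, (hbir hM hM' m).nef D c⟩

theorem Dn.nef (hM : M.Proj) (h : Dn M β) (hD : M.Dv D) (e : β = bar M D) : M.Nef D :=
  let ⟨_, a, b, c⟩ := h
  bar_inj hM a hD (b.symm.trans e) ▸ c

theorem dn_ex (h : Nef β) (M : Mdl n 0 K) (hM : M.Proj) :
    ∃ (M' : Mdl n 0 K) (_ : Mod M' M), M'.Proj ∧ Dn M' β := by
  obtain ⟨M₁, m₁, h₁, k₁⟩ := ds_ex h.car M hM
  obtain ⟨s, hs⟩ := h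
  obtain ⟨M₂, m₂, h₂, E, a1, a2⟩ := ds_ex (mx_mem_Car s) M₁ h₁
  obtain ⟨D, b1, rfl⟩ := k₁.up h₁ h₂ m₂
  refine ⟨M₂, F5.Mod.comp m₂ m₁, h₂, D, b1, rfl, fun A hA => ?_⟩
  obtain ⟨ε, h1, h2⟩ := (hpos h₂).opn A (-E) hA
  have := smp_nef h₂ (dv_add b1 (FI.dv_smul a1 ε))
    (by rw [map_add, map_smul, ← a2]; exact hs ε h1) _ h2
  rwa [show D + ε • E + (A + ε • -E) = D + A by module] at this

theorem big_bar (hM : M.Proj) (hD : M.Dv D) : Big (bar M D) ↔ I.Big M D := by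
  refine ⟨fun h => ?_, fun ⟨A, h1, h2, h3⟩ s => ?_⟩
  · obtain ⟨H, hH⟩ := (pc hM).pol
    obtain ⟨s, hs⟩ := mx_of_free hM hH.free
    obtain ⟨ε, h1, h2⟩ := h s
    rw [hs, ← map_smul, ← map_sub, eff_bar hM (dv_sub hD (FI.dv_smul hH.dv ε))] at h2
    exact ⟨_, FI.dv_smul hH.dv ε, (hpos hM).smul _ ε h1 hH.amp, h2⟩
  · obtain ⟨ε, k1, k2⟩ := (hpos hM).opn A (-sys M s) h2
    have := eff_of hM (h3.add (F5.eff_amp (hloc hM) (hpos hM)
      (dv_add h1 (FI.dv_smul (by simpa using FI.dv_smul (dv_sys s) (-1)) ε)) k2))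
    rw [show D - A + (A + ε • -sys M s) = D - ε • sys M s by module, map_sub, map_smul] at this
    exact ⟨ε, k1, this.mono (sub_le_sub_left (smul_le_smul_of_nonneg_left (mx_le_sys hM s) k1.le) _)⟩

/-- **COM** with nef b-divisors -/
theorem comS (hM : M.Proj) {B : Set (BD K)} (hB : B.Finite) (hc : ∀ β ∈ B, β ∈ Car K)
    {T : Set (Pl K)} (hT : T.Finite) {T' : Set (Place K)} (hT' : T'.Finite) :
    ∃ (M' : Mdl n 0 K) (_ : Mod M' M) (U : Set (Place K)), M'.Proj ∧ U.Finite ∧ M'.Snc U ∧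
      Exc M' M ⊆ U ∧ (∀ P ∈ T, P.toPlace ∈ U) ∧ (∀ Q ∈ T', M'.Pr Q → Q ∈ U) ∧
      ∀ β ∈ B, ∃ D, M'.Dv D ∧ β = bar M' D ∧ (D.support : Set (Place K)) ⊆ U ∧
        (β ∈ CarZ K → IsInt D) ∧ (Nef β → M'.Nef D) := by
  obtain ⟨M₁, m₁, h₁, k₁⟩ := simul (p := fun β M => Dn M β) (hB.subset (sep_subset B Nef))
    (fun β _ M M' a b m c => c.up a b m) (fun β hβ => dn_ex hβ.2) hM
  obtain ⟨M₂, m₂, U, h₂, a, b, c, d, e, f⟩ := com h₁ hB hc hT (hT'.union (hbir hM h₁ m₁).fin)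
  refine ⟨M₂, F5.Mod.comp m₂ m₁, U, h₂, a, b, fun Q hQ => ?_, d, fun Q hQ => e Q (Or.inl hQ),
    fun β hβ => (f β hβ).imp fun D k => ⟨k.1, k.2.1, k.2.2.1, k.2.2.2, fun g =>
      ((k₁ β ⟨hβ, g⟩).up h₁ h₂ m₂).nef h₂ k.1 k.2.1⟩⟩
  by_cases k : M₁.Pr Q
  · exact e Q (Or.inr ⟨k, hQ.2⟩) hQ.1
  · exact c ⟨hQ.1, k⟩

/-- **NB**: log resolution of a nef and big b-divisor -/
theorem nb (hM : M.Proj) {X : BD K} (hX : Nef X) (hb : Big X) {B : Set (BD K)} (hB : B.Finite)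
    (hc : ∀ β ∈ B, β ∈ Car K) {T : Set (Pl K)} (hT : T.Finite) {T' : Set (Place K)}
    (hT' : T'.Finite) :
    ∃ (M' : Mdl n 0 K) (_ : Mod M' M) (U : Set (Place K)) (D E : Div K), M'.Proj ∧ U.Finite ∧
      M'.Snc U ∧ Exc M' M ⊆ U ∧ (∀ P ∈ T, P.toPlace ∈ U) ∧ (∀ Q ∈ T', M'.Pr Q → Q ∈ U) ∧
      (∀ β ∈ B, ∃ D, M'.Dv D ∧ β = bar M' D ∧ (D.support : Set (Place K)) ⊆ U ∧
        (β ∈ CarZ K → IsInt D) ∧ (Nef β → M'.Nef D)) ∧
      M'.Dv D ∧ X = bar M' D ∧ (D.support : Set (Place K)) ⊆ U ∧ M'.Nef D ∧ M'.Dv E ∧ 0 ≤ E ∧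
      (E.support : Set (Place K)) ⊆ U ∧ ∀ ε : ℝ, 0 < ε → ε ≤ 1 → M'.Amp (D - ε • E) := by
  obtain ⟨M₁, m₁, h₁, D, a1, rfl, a2⟩ := dn_ex hX M hM
  obtain ⟨A, b1, b2, G, b3⟩ := (big_bar h₁ a1).1 hb
  have b4 := b3.dv (dv_sub a1 b1)
  have b5 : M₁.Amp (D - G) := F5.amp_congr (hloc h₁) (hpos h₁) b2 (by
    rw [show D - G - A = -(G - (D - A)) by abel]
    exact neg_mem b3.2)
  obtain ⟨M₂, m₂, U, h₂, c1, c2, c3, c4, c5, c6⟩ := comS h₁ hB hc hT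
    (((hT'.union (hbir hM h₁ m₁).fin).union G.support.finite_toSet).union D.support.finite_toSet)
  have hB := hbir h₁ h₂ m₂
  obtain ⟨H, d1, -, d2, d3⟩ := hB.amp
  obtain ⟨δ, e1, e2⟩ := d3 _ b5
  have sp : ∀ D' : Div K, (∀ Q ∈ D'.support, M₂.Pr Q → Q ∈ U) →
      ((M₁.pull M₂ D').support : Set (Place K)) ⊆ U := fun D' k Q hQ =>
    (pull_supp (hloc h₁) hB _ (Finsupp.mem_support_iff.1 hQ)).elim
      (fun e => k Q (Finsupp.mem_support_iff.2 e) (dv_pull _ Q hQ)) fun e => c3 e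
  refine ⟨M₂, F5.Mod.comp m₂ m₁, U, M₁.pull M₂ D, M₁.pull M₂ G + δ • H, h₂, c1, c2, fun Q hQ => ?_,
    c4, fun Q hQ => c5 Q (.inl (.inl (.inl hQ))), c6, dv_pull _, (bar_pull h₁ h₂ m₂ D).symm,
    sp D fun Q hQ => c5 Q (.inr hQ), hB.nef D a2,
    dv_add (dv_pull _) (FI.dv_smul (fun Q hQ => (d1.le hQ).1) δ),
    add_nonneg (pull_nonneg hB b3.1) (smul_nonneg e1.le d2), fun Q hQ => ?_, fun ε k1 k2 => ?_⟩
  · by_cases k : M₁.Pr Q
    · exact c5 Q (.inl (.inl (.inr ⟨k, hQ.2⟩))) hQ.1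
    · exact c3 ⟨hQ.1, k⟩
  · classical
    exact (Finset.mem_union.1 (Finsupp.support_add hQ)).elim
      (fun k => sp G (fun Q hQ => c5 Q (.inl (.inr hQ))) k) fun k =>
        c3 (d1.le (Finsupp.support_smul k))
  · have := F5.nef_smul (hpos h₂) (hB.nef D a2) (sub_nonneg.2 k2) _ ((hpos h₂).smul _ ε k1 e2)
    rw [← pl_apply hB (D - G), map_sub, pl_apply, pl_apply] at this
    convert this using 1
    module

end Vale.Agent.P287D.Ba.Nb
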