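import Vale.Agent.P287D.Ba.I
import Vale.Agent.P287D.Ba.Nb
import Vale.Agent.P287D.Ba.Cn
import Vale.Agent.P287D.Va.Dsc
import Vale.Agent.P287D.St
import Vale.Agent.P287D.I.Siu

/-!
# P287D, bridge: smooth models as varieties `V Λ`; the row MOD
-/

set_option linter.all false

open Set Filter Topology
open Vale.Agent.P297 (Place)
open Vale.Agent.P277Z Vale.Agent.P277Z.FI

noncomputable section

namespace Vale.Agent.P287D.Ba.Md

variable {n : ℕ} {K : Type} [Field K] [Algebra ℂ K]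

section gen

variable {M : Mdl n 0 K} {A D : Div K}

theorem dsc_bar (hM : M.Proj) (hd : M.Dv A) (hA : M.Amp A) (D : Div K) :
    Dsc (bar M A) (bar M D) := by
  obtain ⟨ε, h0, h⟩ := Metric.eventually_nhds_iff.1 (F5.amp_ev (hpos hM) hA (M.tr D))
  refine .of_abs (half_pos h0) fun t ht => ?_
  rw [← bar_tr hM D, ← map_smul, ← map_add]
  exact Nb.smp_amp hM (dv_add hd (FI.dv_smul (F5.dv_tr D) t))
    (h (by rw [Real.dist_0_eq_abs]; linarith))

theorem trc_cn (hM : M.Proj) : Trc M (cn K n) (KM M) := ⟨KM_dv hM, fun _ h => KM_pr hM h⟩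

theorem bar_KM_le (hM : M.Proj) : bar M (KM M) ≤ cn K n := fun P => sub_nonneg.1 (disc_nonneg hM P)

end gen

variable {M : Mdl (n + 1) 0 K} {A D : Div K}

theorem hull_trc (hM : M.Proj) (hd : M.Dv A) (hA : M.Amp A) {Z : BD K} (h : Trc M Z D) :
    Hull n (bar M A) Z (bar M D) :=
  ⟨dsc_bar hM hd hA D, fun P hP =>
    (bar_pr hM (pr_of_on hM hP) D).trans (h.2 P (pr_of_on hM hP)).symm⟩

theorem one_le_dsc (hM : M.Proj) (hd : M.Dv A) (hA : M.Amp A) (P : Pl K)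
    (h : ¬ On n (bar M A) P) : 1 ≤ dsc (n + 1) (bar M (KM M)) P :=
  disc_one hM fun k => h ((on_amp hM hA hd).2 k)

theorem term (hM : M.Proj) (hd : M.Dv A) (hA : M.Amp A) : Term n (bar M A) (bar M (KM M)) :=
  ⟨Nb.smp_amp hM hd hA, big_of_big hM (.of_amp hd hA), hull_trc hM hd hA (trc_cn hM),
    fun P h => one_pos.trans_le (one_le_dsc hM hd hA P h)⟩

theorem fact (hM : M.Proj) (hd : M.Dv A) (hA : M.Amp A) (P : Pl K) (h : On n (bar M A) P) :
    ∃ β ∈ CarZ K, Hull n (bar M A) P.δ β :=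
  ⟨_, bar_carZ hM (IsInt.single _), hull_trc hM hd hA (trc_δ (pr_of_on hM h))⟩

theorem qf (hM : M.Proj) (hd : M.Dv A) (hA : M.Amp A) : QF n (bar M A) := fun P h =>
  let ⟨β, a, b⟩ := fact hM hd hA P h
  ⟨β, CarZ.carQ a, b⟩

theorem isB_cn (hK : FF K (n + 1)) : IsB n (cn K (n + 1)) :=
  let ⟨_, hM⟩ := Bm.exists_mdl hK
  (trc_cn hM).fs.isB hM

theorem big_iff_vol (hK : FF K n) {β : BD K} (h : Nef β) : Big β ↔ 0 < vol n β := by
  obtain ⟨S, hS⟩ := Bm.exists_mdl hK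
  obtain ⟨S', -, h1, D, a, rfl, c⟩ := Nb.dn_ex h S hS
  rw [vol_bar h1, Nb.big_bar h1 a]
  exact I.big_iff_vol (pc h1) a c

theorem on_iff_big (hK : FF K (n + 1)) {Λ : BD K} (hΛ : Nef Λ) (P : Pl K) :
    On n Λ P ↔ Big (res P Λ) := (big_iff_vol (Bm.ff_κ hK P) (res_nef hK P hΛ)).symm

theorem big_of_amp (hM : M.Proj) (hd : M.Dv A) (hA : M.Amp A) {P : Pl K} (h : M.Pr P.toPlace) :
    Big (res P (bar M A)) :=
  (on_iff_big (Bm.ff hM) (Nb.smp_amp hM hd hA).nef P).1 ((on_amp hM hA hd).2 h)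

/-- a nef and big b-divisor contracts only finitely many prime divisors of a model -/
theorem exc_fin (hM : M.Proj) {Λ : BD K} (h1 : Nef Λ) (h2 : Big Λ) :
    {P : Pl K | M.Pr P.toPlace ∧ ¬ On n Λ P}.Finite := by
  have hK := Bm.ff hM
  obtain ⟨H, s, a, b, c⟩ := exists_pol hM
  obtain ⟨ε, e1, G, e2⟩ := h2 s
  have e3 : G ∈ Car K := e2.car (sub_mem h1.car (Submodule.smul_mem _ ε (mx_mem_Car s)))
  refine (fs_car hM e3).subset fun P hP => ⟨hP.1, fun k => hP.2 ((on_iff_big hK h1 P).2 ?_)⟩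
  have := ((b ▸ big_of_amp hM a.dv a.amp hP.1 : Big (res P (mx s))).smul e1).add_eff
    (res_eff hK P (sub_mem h1.car (Submodule.smul_mem _ ε (mx_mem_Car s))) e2 k)
  rwa [res_sub_smul hK P h1.car (mx_mem_Car s), add_sub_cancel] at this

theorem exc (hK : FF K (n + 1)) {Λ Λ' : BD K} (h : Λ ∈ Car K) (h1 : Nef Λ') (h2 : Big Λ') :
    {P | On n Λ P ∧ ¬ On n Λ' P}.Finite := by
  obtain ⟨M, D, hM, -, rfl, -⟩ := com1 hK h
  exact (exc_fin hM h1 h2).subset fun P k => ⟨pr_of_on hM k.1, k.2⟩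

end Md

/-- **MOD** -/
theorem mod : MOD where
  isb _ _ _ _ hK := ⟨fun _ => isB_car hK, Md.isB_cn hK, int_cn⟩
  ex n K _ _ hK T B hT hB hc := by
    obtain ⟨M₀, h₀⟩ := Bm.exists_mdl hK
    obtain ⟨M, -, U, hM, -, a, -, b, -, c⟩ := com h₀ hB hc hT finite_empty
    obtain ⟨H, s, d, e, -⟩ := exists_pol hM
    refine ⟨s, bar M (KM M), ?_⟩
    rw [e]
    exact ⟨Md.term hM d.dv d.amp, bar_carZ hM (KM_int hM),
      fun P k => (on_amp hM d.amp d.dv).2 (a.1 _ (b P k)),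
      fun β k => let ⟨D, _, f, _⟩ := c β k; f ▸ Md.dsc_bar hM d.dv d.amp D,
      Md.one_le_dsc hM d.dv d.amp, Md.fact hM d.dv d.amp⟩
  fin _ _ _ _ hK _ := fin_isB hK
  exc _ _ _ _ hK _ _ a _ b c := Md.exc hK a.car b.nef c
  zero _ _ _ _ hK _ := prn_zero hK
  int _ _ _ _ hK _ := carQ_of_rat hK

end Vale.Agent.P287D.Ba
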