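import Vale.Agent.P287D.Bm.Pl

/-!
# P287D, bridge: the b-divisor of a divisor of a smooth model
-/

set_option linter.all false

open Set
open Vale.Agent.P297 (Place)
open Vale.Agent.P297Z.Pl
open Vale.Agent.P277Z Vale.Agent.P277Z.FI

noncomputable section

namespace Vale.Agent.P287D.Ba

export Vale.Agent.P277Z (Div Mod)

variable {n : ℕ} {K : Type} [Field K] [Algebra ℂ K] {M M' : Mdl n 0 K}

theorem pl_inj : Function.Injective (Pl.toPlace : Pl K → Place K) := fun ⟨_, _, _⟩ ⟨_, _, _⟩ h => by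
  cases h; rfl

theorem hloc (hM : M.Proj) : Loc M := locA n 0 K M hM

theorem hpos (hM : M.Proj) : Pos M := posA n 0 K M hM

theorem hbir (hM : M.Proj) (hM' : M'.Proj) (m : Mod M' M) : Bir M' M m := birA n 0 K M hM M' m hM'

theorem cpt (M : Mdl n 0 K) : F5.Cpt M := .of_forall fun _ => Subsingleton.elim _ _

/-- every place has a centre -/
theorem ct (hM : M.Proj) (P : Pl K) : ∃ x, M.Ct x P.toPlace :=
  Bm.ct hM P

/-- the b-divisor of a divisor of a model -/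
def bar (M : Mdl n 0 K) : Div K →ₗ[ℝ] BD K where
  toFun D P := M.ordD P.toPlace D
  map_add' D E := funext fun P => Bi.ordD_add P.toPlace D E
  map_smul' c D := funext fun P => Bi.ordD_smul P.toPlace c D

theorem bar_apply (D : Div K) (P : Pl K) : bar M D P = M.ordD P.toPlace D := rfl

theorem bar_ct (hM : M.Proj) {x : M.F} {P : Pl K} (h : M.Ct x P.toPlace) (D : Div K) :
    bar M D P = M.ordAt x P.toPlace D := Bi.ordD_eq (hloc hM) h D

theorem bar_pr (hM : M.Proj) {P : Pl K} (h : M.Pr P.toPlace) (D : Div K) :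
    bar M D P = D P.toPlace :=
  let ⟨_, hx⟩ := h
  (bar_ct hM (ct_of_on hx) D).trans (ordAt_on (hloc hM) hx D)

theorem bar_nonneg' (hM : M.Proj) {D : Div K} (h : ∀ Q, M.Pr Q → 0 ≤ D Q) : 0 ≤ bar M D := fun P =>
  let ⟨x, hx⟩ := ct hM P
  (bar_ct hM hx D).symm ▸ F5.LrH.ordAt_nonneg' hx fun Q hQ => h Q ⟨x, hQ⟩

theorem bar_nonneg (hM : M.Proj) {D : Div K} (h : 0 ≤ D) : 0 ≤ bar M D :=
  bar_nonneg' hM fun Q _ => h Q

theorem bar_mono' (hM : M.Proj) {D E : Div K} (h : ∀ Q, M.Pr Q → D Q ≤ E Q) :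
    bar M D ≤ bar M E := by
  have := bar_nonneg' hM (D := E - D) fun Q hQ => sub_nonneg.2 (h Q hQ)
  rwa [map_sub, sub_nonneg] at this

theorem bar_mono (hM : M.Proj) {D E : Div K} (h : D ≤ E) : bar M D ≤ bar M E :=
  bar_mono' hM fun Q _ => h Q

theorem bar_congr (hM : M.Proj) {D E : Div K} (h : ∀ Q, M.Pr Q → D Q = E Q) : bar M D = bar M E :=
  le_antisymm (bar_mono' hM fun Q hQ => (h Q hQ).le) (bar_mono' hM fun Q hQ => (h Q hQ).ge)

theorem bar_tr (hM : M.Proj) (D : Div K) : bar M (M.tr D) = bar M D :=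
  bar_congr hM fun _ hQ => F5.tr_apply hQ D

theorem bar_div (hM : M.Proj) (f : K) : bar M (M.div f) = dv f := funext fun P => by
  obtain ⟨x, hx⟩ := ct hM P
  by_cases hf : f = 0
  · rw [bar_congr hM (E := 0) fun Q hQ => by rw [div_apply (hloc hM) f hQ, hf]; simp, hf]
    simp [dv]
  · exact (bar_ct hM hx _).trans (ordAt_div (hloc hM) hx hf)

theorem bar_int (hM : M.Proj) {D : Div K} (h : IsInt D) (P : Pl K) : ∃ k : ℤ, bar M D P = k :=
  let ⟨_, hx⟩ := ct hM P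
  (bar_ct hM hx D).symm ▸ IsInt.fsum h _

/-- local description -/
theorem bar_loc (hM : M.Proj) {x : M.F} {P : Pl K} (h : M.Ct x P.toPlace) {D E : Div K}
    (e : ∀ Q, M.On x Q → D Q = E Q) : bar M D P = bar M E P := by
  rw [← sub_eq_zero, ← Pi.sub_apply, ← map_sub, bar_ct hM h]
  exact ordAt_eq_zero _ fun Q hQ => sub_eq_zero.2 (e Q hQ)

theorem bar_pull (hM : M.Proj) (hM' : M'.Proj) (m : Mod M' M) (D : Div K) :
    bar M' (M.pull M' D) = bar M D := funext fun P => by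
  obtain ⟨y, hy⟩ := ct hM' P
  have hB := hbir hM hM' m
  have hx : M.Ct (pt m y) P.toPlace := fun f hf => hy f ((hB.le y (pt m y) rfl).1 hf)
  have e : ∀ R, bar M' (pl hB (Finsupp.single R 1)) P = bar M (Finsupp.single R 1) P := fun R => by
    rw [bar_loc hM' hy (E := M'.div (M.eqn (pt m y) R)) fun Q hQ => by
      rw [pl_apply, pull_on hB hQ, ordAt_single, one_mul, div_apply (hloc hM') _ ⟨y, hQ⟩],
      bar_div hM', bar_ct hM hx, ordAt_single, one_mul, dv]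
  rw [← pl_apply hB]
  induction D using Finsupp.induction_linear with
  | zero => simp
  | add D E h1 h2 => simp only [map_add, Pi.add_apply, h1, h2]
  | single R c =>
    rw [← mul_one c, ← smul_eq_mul, ← Finsupp.smul_single]
    simp only [map_smul, Pi.smul_apply, e]

theorem bar_prR (hM : M.Proj) {D : Div K} (h : D ∈ F5.PrR M) : bar M D ∈ Prn K := by
  refine (Submodule.span_le (p := (Prn K).comap (bar M))).2 ?_ h
  rintro _ ⟨f, -, rfl⟩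
  exact Submodule.subset_span ⟨f, (bar_div hM f).symm⟩

theorem prn_bar (hM : M.Proj) {β : BD K} (h : β ∈ Prn K) : ∃ D ∈ F5.PrR M, bar M D = β := by
  refine (Submodule.span_le (p := (F5.PrR M).map (bar M))).2 ?_ h
  rintro _ ⟨f, rfl⟩
  by_cases hf : f = 0
  · exact ⟨0, zero_mem _, funext fun P => by simp [dv, hf]⟩
  · exact ⟨_, Submodule.subset_span ⟨f, hf, rfl⟩, bar_div hM f⟩

/-! ### linear systems -/

theorem mz_eq (Q : Place K) {s : Finset K} {f : K} (hf : f ∈ s) (f0 : f ≠ 0)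
    (h : ∀ g ∈ s, g ≠ 0 → Q.ord f ≤ Q.ord g) :
    sSup ((fun f => -Q.ord f) '' {f | f ∈ s ∧ f ≠ 0}) = -Q.ord f :=
  IsGreatest.csSup_eq ⟨⟨f, ⟨hf, f0⟩, rfl⟩, by
    rintro _ ⟨g, ⟨h1, h2⟩, rfl⟩
    exact neg_le_neg (h g h1 h2)⟩

theorem mz_of_dvd (Q : Place K) {s : Finset K} {f : K} (hf : f ∈ s) (f0 : f ≠ 0)
    (h : ∀ g ∈ s, g / f ∈ Q.ring) :
    sSup ((fun f => -Q.ord f) '' {f | f ∈ s ∧ f ≠ 0}) = -Q.ord f :=
  mz_eq Q hf f0 fun g h1 h2 => by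
    have := ord_nonneg_of_mem Q (h g h1)
    rw [ord_div Q h2 f0] at this
    omega

theorem exists_min (Q : Place K) {s : Finset K} (hs : ∃ f ∈ s, f ≠ 0) :
    ∃ f ∈ s, f ≠ 0 ∧ ∀ g ∈ s, g ≠ 0 → Q.ord f ≤ Q.ord g := by
  classical
  obtain ⟨f, h1, h2⟩ := (s.filter (· ≠ 0)).exists_min_image Q.ord
    (hs.imp fun f h => Finset.mem_filter.2 h)
  exact ⟨f, (Finset.mem_filter.1 h1).1, (Finset.mem_filter.1 h1).2,
    fun g a b => h2 g (Finset.mem_filter.2 ⟨a, b⟩)⟩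

theorem mx_zero {s : Finset K} (hs : ¬ ∃ f ∈ s, f ≠ 0) : mx s = 0 := funext fun P => by
  rw [mx, Pl.mz, show {f | f ∈ s ∧ f ≠ 0} = ∅ from eq_empty_of_forall_notMem fun f h => hs ⟨f, h⟩]
  simp

open Classical in
/-- the divisor of a linear system on a model -/
def sys (M : Mdl n 0 K) (s : Finset K) : Div K := mkDiv fun Q =>
  if M.Pr Q then ((sSup ((fun f => -Q.ord f) '' {f | f ∈ s ∧ f ≠ 0}) : ℤ) : ℝ) else 0

theorem dv_sys (s : Finset K) : M.Dv (sys M s) := dv_iff.2 fun _ hP => mkDiv_zero (if_neg hP)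

theorem sys_apply (hM : M.Proj) (s : Finset K) {Q : Place K} (hQ : M.Pr Q) :
    sys M s Q = ((sSup ((fun f => -Q.ord f) '' {f | f ∈ s ∧ f ≠ 0}) : ℤ) : ℝ) := by
  classical
  rw [sys, mkDiv_apply, if_pos hQ]
  refine (s.finite_toSet.biUnion fun f _ => (hloc hM).fin f).subset fun R hR => ?_
  by_cases h : M.Pr R
  · by_cases hs : ∃ f ∈ s, f ≠ 0
    · obtain ⟨f, h1, h2, h3⟩ := exists_min R hs
      exact mem_biUnion h1 ⟨h, by simpa [h, mz_eq R h1 h2 h3] using hR⟩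
    · rw [show {f | f ∈ s ∧ f ≠ 0} = ∅ from eq_empty_of_forall_notMem fun f h => hs ⟨f, h⟩] at hR
      simp at hR
  · simp [h] at hR

theorem sys_pl (hM : M.Proj) (s : Finset K) {P : Pl K} (hP : M.Pr P.toPlace) :
    sys M s P.toPlace = mx s P := sys_apply hM s hP

theorem int_sys (hM : M.Proj) (s : Finset K) : IsInt (sys M s) := fun Q => by
  by_cases hQ : M.Pr Q
  · exact ⟨_, sys_apply hM s hQ⟩
  · exact ⟨0, by simpa using dv_iff.1 (dv_sys s) Q hQ⟩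

theorem mem_sys (hM : M.Proj) {s : Finset K} {f : K} (hf : f ∈ s) : f ∈ M.H0 (sys M s) :=
  or_iff_not_imp_left.2 fun f0 Q hQ => by
    obtain ⟨g, h1, h2, h3⟩ := exists_min Q ⟨f, hf, f0⟩
    rw [sys_apply hM s hQ, mz_eq Q h1 h2 h3]
    exact_mod_cast sub_nonneg.2 (h3 f hf f0)

/-- a system is bounded by the b-divisor of its trace -/
theorem mx_le (hM : M.Proj) {s : Finset K} {D : Div K} (hs : ∃ f ∈ s, f ≠ 0)
    (h : ∀ f ∈ s, f ∈ M.H0 D) : mx s ≤ bar M D := fun P => by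
  obtain ⟨f, h1, h2, h3⟩ := exists_min P.toPlace hs
  have := bar_nonneg' hM (D := M.div f + D) (fun Q hQ => by
    simpa [div_apply (hloc hM) f hQ] using (h f h1).resolve_left h2 Q hQ) P
  rw [map_add, bar_div hM] at this
  rw [mx, Pl.mz, mz_eq _ h1 h2 h3, Int.cast_neg]
  exact neg_le_iff_add_nonneg'.2 this

/-- a free system -/
theorem mx_free (hM : M.Proj) {s : Finset K} {D : Div K} (h : ∀ f ∈ s, f ∈ M.H0 D)
    (h' : ∀ x, ∃ f ∈ s, f ≠ 0 ∧ ∀ Q, M.On x Q → (Q.ord f : ℝ) + D Q = 0) : mx s = bar M D := by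
  refine funext fun P => ?_
  obtain ⟨x, hx⟩ := ct hM P
  obtain ⟨f, h1, h2, h3⟩ := h' x
  refine le_antisymm (mx_le hM ⟨f, h1, h2⟩ h P) ?_
  obtain ⟨g, k1, k2, k3⟩ := exists_min P.toPlace ⟨f, h1, h2⟩
  rw [bar_loc hM hx (E := -M.div f) fun Q hQ => by
    rw [Finsupp.neg_apply, div_apply (hloc hM) f ⟨x, hQ⟩, eq_neg_of_add_eq_zero_right (h3 Q hQ)],
    map_neg, bar_div hM, mx, Pl.mz, mz_eq _ k1 k2 k3, Int.cast_neg]
  exact neg_le_neg (Int.cast_le.2 (k3 f h1 h2))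

theorem prin_free (hM : M.Proj) {s : Finset K} (h : Prin M s) (x : M.F) :
    ∃ f ∈ s, f ≠ 0 ∧ ∀ Q, M.On x Q → (Q.ord f : ℝ) + sys M s Q = 0 :=
  let ⟨f, h1, h2, h3⟩ := h x
  ⟨f, h1, h2, fun Q hQ => by
    rw [sys_apply hM s ⟨x, hQ⟩, mz_of_dvd Q h1 h2 fun g hg => ct_of_on hQ _ (h3 g hg)]
    simp⟩

theorem mx_prin (hM : M.Proj) {s : Finset K} (h : Prin M s) : mx s = bar M (sys M s) :=
  mx_free hM (fun _ => mem_sys hM) (prin_free hM h)

theorem mx_of_free (hM : M.Proj) {D : Div K} (h : ∀ x, M.Free D x) : ∃ s, mx s = bar M D :=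
  let ⟨s, h1, h2⟩ := F5.LrH.free_sys (hloc hM) h
  ⟨s, mx_free hM h1 h2⟩

/-- integral divisors are integral Cartier b-divisors -/
theorem bar_carZ (hM : M.Proj) {D : Div K} (h : IsInt D) : bar M D ∈ CarZ K := by
  obtain ⟨A, -, iA, hA⟩ := (hpos hM).ex
  obtain ⟨a, ha⟩ := (hpos hM).gg A D hA iA h
  obtain ⟨b, hb⟩ := (hpos hM).gg A 0 hA iA IsInt.zero
  obtain ⟨s, hs⟩ := mx_of_free hM (ha (a + b) (Nat.le_add_right _ _))
  obtain ⟨t, ht⟩ := mx_of_free hM (hb (a + b) (Nat.le_add_left _ _))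
  rw [show bar M D = mx s - mx t by rw [hs, ht, ← map_sub]; congr 1; abel]
  exact sub_mem (AddSubgroup.subset_closure ⟨s, rfl⟩) (AddSubgroup.subset_closure ⟨t, rfl⟩)

theorem carZ_le {β : BD K} (h : β ∈ CarZ K) : β ∈ Car K :=
  (AddSubgroup.closure_le (Car K).toAddSubgroup).2 Submodule.subset_span h

theorem bar_car (hM : M.Proj) (D : Div K) : bar M D ∈ Car K := by
  induction D using Finsupp.induction_linear with
  | zero => simp
  | add D E h1 h2 => rw [map_add]; exact add_mem h1 h2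
  | single R c =>
    rw [← mul_one c, ← smul_eq_mul, ← Finsupp.smul_single, map_smul]
    exact Submodule.smul_mem _ _ (carZ_le (bar_carZ hM (IsInt.single R)))

/-! ### high models -/

theorem prin_up (hM : M.Proj) (hM' : M'.Proj) (m : Mod M' M) {s : Finset K} (h : Prin M s) :
    Prin M' s := fun y =>
  let ⟨f, h1, h2, h3⟩ := h (pt m y)
  ⟨f, h1, h2, fun g hg => ((hbir hM hM' m).le y (pt m y) rfl).1 (h3 g hg)⟩

theorem pr_up (hM : M.Proj) (hM' : M'.Proj) (m : Mod M' M) {Q : Place K} (h : M.Pr Q) : M'.Pr Q :=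
  (hbir hM hM' m).pr Q h

/-- log resolution of finitely many places -/
theorem snc_up (hM : M.Proj) {T : Set (Place K)} (hT : T.Finite) :
    ∃ (M' : Mdl n 0 K) (_ : Mod M' M), M'.Proj ∧ M'.Snc {Q | M'.Pr Q ∧ (Q ∈ T ∨ ¬ M.Pr Q)} := by
  obtain ⟨M', ⟨m⟩, hM', h⟩ := hirA n 0 K M hM T 0 Fin.elim0 hT fun j => j.elim0
  refine ⟨M', m, hM', fun Q hQ => hQ.1, fun y => ?_⟩
  obtain ⟨-, t, h1, h2⟩ := h y
  exact ⟨t, h1, fun Q hQ k => h2 Q k (Or.inl (hQ.2.imp_right fun e => ⟨hQ.1, e⟩))⟩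

/-- principalisation of a system -/
theorem prin_ex (hM : M.Proj) {s : Finset K} (hs : ∃ f ∈ s, f ≠ 0) :
    ∃ (M' : Mdl n 0 K) (_ : Mod M' M), M'.Proj ∧ Prin M' s :=
  let ⟨M', ⟨m⟩, hM', h⟩ := hirA n 0 K M hM ∅ 1 (fun _ => s) finite_empty fun _ => hs
  ⟨M', m, hM', fun y => (h y).1 0⟩

/-- properties which persist on higher models and hold on some model over any given one hold
simultaneously -/
theorem simul {ι : Type*} {p : ι → Mdl n 0 K → Prop} {s : Set ι} (hs : s.Finite)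
    (up : ∀ i ∈ s, ∀ M M' : Mdl n 0 K, M.Proj → M'.Proj → Mod M' M → p i M → p i M')
    (ex : ∀ i ∈ s, ∀ M : Mdl n 0 K, M.Proj → ∃ (M' : Mdl n 0 K) (_ : Mod M' M), M'.Proj ∧ p i M')
    (hM : M.Proj) : ∃ (M' : Mdl n 0 K) (_ : Mod M' M), M'.Proj ∧ ∀ i ∈ s, p i M' := by
  induction s, hs using Set.Finite.induction_on with
  | empty => exact ⟨M, F5.Mod.refl M, hM, fun _ h => h.elim⟩
  | @insert a s _ _ ih =>
    obtain ⟨M₁, m₁, h₁, k₁⟩ := ih (fun i hi => up i (mem_insert_of_mem _ hi))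
      fun i hi => ex i (mem_insert_of_mem _ hi)
    obtain ⟨M₂, m₂, h₂, k₂⟩ := ex a (mem_insert _ _) M₁ h₁
    exact ⟨M₂, F5.Mod.comp m₂ m₁, h₂, forall_mem_insert.2 ⟨k₂, fun i hi =>
      up i (mem_insert_of_mem _ hi) M₁ M₂ h₁ h₂ m₂ (k₁ i hi)⟩⟩

/-- `β` descends to the model `M` -/
def Ds (M : Mdl n 0 K) (β : BD K) : Prop := ∃ D, M.Dv D ∧ β = bar M D

/-- `β` descends to an integral divisor of the model `M` -/
def DsZ (M : Mdl n 0 K) (β : BD K) : Prop := ∃ D, M.Dv D ∧ IsInt D ∧ β = bar M D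

theorem DsZ.ds {β : BD K} (h : DsZ M β) : Ds M β := let ⟨D, a, _, b⟩ := h; ⟨D, a, b⟩

theorem Ds.up (hM : M.Proj) (hM' : M'.Proj) (m : Mod M' M) {β : BD K} (h : Ds M β) : Ds M' β :=
  let ⟨D, _, b⟩ := h
  ⟨_, dv_pull D, b.trans (bar_pull hM hM' m D).symm⟩

theorem DsZ.up (hM : M.Proj) (hM' : M'.Proj) (m : Mod M' M) {β : BD K} (h : DsZ M β) : DsZ M' β :=
  let ⟨D, _, a, b⟩ := h
  ⟨_, dv_pull D, pull_int (hbir hM hM' m) a, b.trans (bar_pull hM hM' m D).symm⟩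

theorem ds_bar (hM : M.Proj) (D : Div K) : Ds M (bar M D) := ⟨_, F5.dv_tr D, (bar_tr hM D).symm⟩

theorem Ds.car (hM : M.Proj) {β : BD K} (h : Ds M β) : β ∈ Car K :=
  let ⟨D, _, b⟩ := h
  b ▸ bar_car hM D

theorem DsZ.carZ (hM : M.Proj) {β : BD K} (h : DsZ M β) : β ∈ CarZ K :=
  let ⟨_, _, a, b⟩ := h
  b ▸ bar_carZ hM a

theorem dsZ_mx (s : Finset K) (M : Mdl n 0 K) (hM : M.Proj) :
    ∃ (M' : Mdl n 0 K) (_ : Mod M' M), M'.Proj ∧ DsZ M' (mx s) := by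
  by_cases hs : ∃ f ∈ s, f ≠ 0
  · obtain ⟨M', m, h, k⟩ := prin_ex hM hs
    exact ⟨M', m, h, _, dv_sys s, int_sys h s, mx_prin h k⟩
  · exact ⟨M, F5.Mod.refl M, hM, 0, dv_zero, IsInt.zero, by rw [mx_zero hs, map_zero]⟩

theorem dsZ_ex {β : BD K} (h : β ∈ CarZ K) (M : Mdl n 0 K) (hM : M.Proj) :
    ∃ (M' : Mdl n 0 K) (_ : Mod M' M), M'.Proj ∧ DsZ M' β := by
  induction h using AddSubgroup.closure_induction generalizing M with
  | mem _ h => obtain ⟨s, rfl⟩ := h; exact dsZ_mx s M hM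
  | zero => exact ⟨M, F5.Mod.refl M, hM, 0, dv_zero, IsInt.zero, (map_zero _).symm⟩
  | add β γ _ _ h1 h2 =>
    obtain ⟨M₁, m₁, h₁, k₁⟩ := h1 M hM
    obtain ⟨M₂, m₂, h₂, E, b1, b2, b3⟩ := h2 M₁ h₁
    obtain ⟨D, a1, a2, a3⟩ := k₁.up h₁ h₂ m₂
    exact ⟨M₂, F5.Mod.comp m₂ m₁, h₂, D + E, dv_add a1 b1, IsInt.add a2 b2, by rw [map_add, a3, b3]⟩
  | neg β _ h1 =>
    obtain ⟨M₁, m₁, h₁, D, a1, a2, a3⟩ := h1 M hM
    exact ⟨M₁, m₁, h₁, -D, by simpa using dv_smul a1 (-1), IsInt.neg a2, by rw [map_neg, a3]⟩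

theorem ds_ex {β : BD K} (h : β ∈ Car K) (M : Mdl n 0 K) (hM : M.Proj) :
    ∃ (M' : Mdl n 0 K) (_ : Mod M' M), M'.Proj ∧ Ds M' β := by
  induction h using Submodule.span_induction generalizing M with
  | mem _ h =>
    obtain ⟨s, rfl⟩ := h
    exact (dsZ_mx s M hM).imp fun _ ⟨m, a, b⟩ => ⟨m, a, b.ds⟩
  | zero => exact ⟨M, F5.Mod.refl M, hM, 0, dv_zero, (map_zero _).symm⟩
  | add β γ _ _ h1 h2 =>
    obtain ⟨M₁, m₁, h₁, k₁⟩ := h1 M hM
    obtain ⟨M₂, m₂, h₂, E, b1, b3⟩ := h2 M₁ h₁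
    obtain ⟨D, a1, a3⟩ := k₁.up h₁ h₂ m₂
    exact ⟨M₂, F5.Mod.comp m₂ m₁, h₂, D + E, dv_add a1 b1, by rw [map_add, a3, b3]⟩
  | smul c β _ h1 =>
    obtain ⟨M₁, m₁, h₁, D, a1, a3⟩ := h1 M hM
    exact ⟨M₁, m₁, h₁, c • D, dv_smul a1 c, by rw [map_smul, a3]⟩

/-- **COM**, without places: finitely many Cartier b-divisors descend to one model, on which the
traces, the primes among `T` and the exceptional primes have simple normal crossings -/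
theorem com0 (hM : M.Proj) {B : Set (BD K)} (hB : B.Finite) (hc : ∀ β ∈ B, β ∈ Car K)
    {T : Set (Place K)} (hT : T.Finite) :
    ∃ (M' : Mdl n 0 K) (_ : Mod M' M) (U : Set (Place K)), M'.Proj ∧ U.Finite ∧ M'.Snc U ∧
      Exc M' M ⊆ U ∧ (∀ Q ∈ T, M'.Pr Q → Q ∈ U) ∧ ∀ β ∈ B, ∃ D, M'.Dv D ∧ β = bar M' D ∧
        (D.support : Set (Place K)) ⊆ U ∧ (β ∈ CarZ K → IsInt D) := by
  obtain ⟨M₁, m₁, h₁, k₁⟩ := simul (p := fun β M => ∃ D, M.Dv D ∧ β = bar M D ∧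
    (β ∈ CarZ K → IsInt D)) hB (fun β _ M M' a b m ⟨D, _, c, d⟩ => ⟨_, dv_pull D,
      c.trans (bar_pull a b m D).symm, fun e => pull_int (hbir a b m) (d e)⟩) (fun β hβ M a => by
        by_cases e : β ∈ CarZ K
        · obtain ⟨M', m, b, D, c, d, f⟩ := dsZ_ex e M a
          exact ⟨M', m, b, D, c, f, fun _ => d⟩
        · obtain ⟨M', m, b, D, c, f⟩ := ds_ex (hc β hβ) M a
          exact ⟨M', m, b, D, c, f, fun k => (e k).elim⟩) hM
  choose! D a1 a2 a3 using k₁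
  have f₁ : (T ∪ Exc M₁ M ∪ ⋃ β ∈ B, ((D β).support : Set (Place K))).Finite :=
    (hT.union (hbir hM h₁ m₁).fin).union (hB.biUnion fun β _ => (D β).support.finite_toSet)
  obtain ⟨M₂, m₂, h₂, k₂⟩ := snc_up h₁ f₁
  refine ⟨M₂, F5.Mod.comp m₂ m₁, _, h₂, (f₁.union (hbir h₁ h₂ m₂).fin).subset fun Q hQ =>
    hQ.2.imp_right fun e => ⟨hQ.1, e⟩, k₂, fun Q hQ => ⟨hQ.1, or_iff_not_imp_right.2 fun e =>
      Or.inl (Or.inr ⟨not_not.1 e, hQ.2⟩)⟩, fun Q a b => ⟨b, Or.inl (Or.inl (Or.inl a))⟩,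
    fun β hβ => ⟨_, dv_pull (D β), (a2 β hβ).trans (bar_pull h₁ h₂ m₂ _).symm, fun Q hQ =>
      ⟨dv_pull _ Q hQ, ?_⟩, fun e => pull_int (hbir h₁ h₂ m₂) (a3 β hβ e)⟩⟩
  exact (pull_supp (hloc h₁) (hbir h₁ h₂ m₂) _ (Finsupp.mem_support_iff.1 hQ)).imp
    (fun e => Or.inr (mem_biUnion hβ (Finsupp.mem_support_iff.2 e))) fun e => e.2

/-- **COM**: finitely many Cartier b-divisors descend to one model, on which finitely many given
places are prime divisors and all the supports have simple normal crossings -/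
theorem com (hM : M.Proj) {B : Set (BD K)} (hB : B.Finite) (hc : ∀ β ∈ B, β ∈ Car K)
    {T : Set (Pl K)} (hT : T.Finite) {T' : Set (Place K)} (hT' : T'.Finite) :
    ∃ (M' : Mdl n 0 K) (_ : Mod M' M) (U : Set (Place K)), M'.Proj ∧ U.Finite ∧ M'.Snc U ∧
      Exc M' M ⊆ U ∧ (∀ P ∈ T, P.toPlace ∈ U) ∧ (∀ Q ∈ T', M'.Pr Q → Q ∈ U) ∧
      ∀ β ∈ B, ∃ D, M'.Dv D ∧ β = bar M' D ∧ (D.support : Set (Place K)) ⊆ U ∧
        (β ∈ CarZ K → IsInt D) := by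
  obtain ⟨M₁, ⟨m₁⟩, h₁, k₁⟩ := Bm.plm hM hT
  obtain ⟨M₂, m₂, U, h₂, a, b, c, d, e⟩ := com0 h₁ hB hc
    (((hT.image Pl.toPlace).union hT').union (hbir hM h₁ m₁).fin)
  refine ⟨M₂, F5.Mod.comp m₂ m₁, U, h₂, a, b, fun Q hQ => ?_, fun P hP =>
    d _ (Or.inl (Or.inl ⟨P, hP, rfl⟩)) (pr_up h₁ h₂ m₂ (k₁ P hP)),
    fun Q hQ => d Q (Or.inl (Or.inr hQ)), e⟩
  by_cases k : M₁.Pr Q
  · exact d Q (Or.inr ⟨k, hQ.2⟩) hQ.1
  · exact c ⟨hQ.1, k⟩

/-- **COM** for a finite family -/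
theorem comF (hM : M.Proj) {ι : Type*} [Finite ι] {β : ι → BD K} (hc : ∀ i, β i ∈ Car K)
    {T : Set (Pl K)} (hT : T.Finite) {T' : Set (Place K)} (hT' : T'.Finite) :
    ∃ (M' : Mdl n 0 K) (_ : Mod M' M) (U : Set (Place K)) (D : ι → Div K), M'.Proj ∧ U.Finite ∧
      M'.Snc U ∧ Exc M' M ⊆ U ∧ (∀ P ∈ T, P.toPlace ∈ U) ∧ (∀ Q ∈ T', M'.Pr Q → Q ∈ U) ∧
      ∀ i, M'.Dv (D i) ∧ β i = bar M' (D i) ∧ ((D i).support : Set (Place K)) ⊆ U ∧
        (β i ∈ CarZ K → IsInt (D i)) := by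
  obtain ⟨M', m, U, a, b, c, d, e, f, g⟩ := com hM (finite_range β) (forall_mem_range.2 hc) hT hT'
  choose D hD using forall_mem_range.1 g
  exact ⟨M', m, U, D, a, b, c, d, e, f, hD⟩

/-- a finite family of Cartier b-divisors descends to a model -/
theorem com' (hK : FF K n) {ι : Type*} [Finite ι] {β : ι → BD K} (hc : ∀ i, β i ∈ Car K) :
    ∃ (M : Mdl n 0 K) (D : ι → Div K), M.Proj ∧
      ∀ i, M.Dv (D i) ∧ β i = bar M (D i) ∧ (β i ∈ CarZ K → IsInt (D i)) := by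
  obtain ⟨M, hM⟩ := Bm.exists_mdl hK
  obtain ⟨M', -, U, D, a, -, -, -, -, -, h⟩ := comF hM hc finite_empty finite_empty
  exact ⟨M', D, a, fun i => ⟨(h i).1, (h i).2.1, (h i).2.2.2⟩⟩

theorem com1 (hK : FF K n) {β : BD K} (hc : β ∈ Car K) :
    ∃ (M : Mdl n 0 K) (D : Div K), M.Proj ∧ M.Dv D ∧ β = bar M D ∧ (β ∈ CarZ K → IsInt D) :=
  let ⟨M, D, a, b⟩ := com' hK (β := fun _ : Unit => β) fun _ => hc
  ⟨M, D (), a, b ()⟩

end Vale.Agent.P287D.Ba
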