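import Vale.Agent.P287D.Ba.I
import Vale.Agent.P287D.Ba.Nb
import Vale.Agent.P287D.I.Siu
import Vale.Agent.P287D.In.Bas

/-!
# P287D, bridge: the rows `RES`, `VOL.big` and the inputs of the intersection theory
-/

set_option linter.all false

open Set
open Vale.Agent.P277Z Vale.Agent.P277Z.FI Vale.Agent.P277Z.F5

noncomputable section

namespace Vale.Agent.P287D

variable {n : ℕ} {K : Type} [Field K] [Algebra ℂ K]

/-- a nef b-divisor is big if and only if its volume is positive -/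
theorem big_iff_vol (h : FF K n) {β : BD K} (hβ : Nef β) : Big β ↔ 0 < vol n β := by
  obtain ⟨M₀, h₀⟩ := Bm.exists_mdl h
  obtain ⟨M, -, hM, D, a, rfl, b⟩ := Ba.Nb.dn_ex hβ M₀ h₀
  rw [Ba.Nb.big_bar hM a, Ba.vol_bar hM]
  exact I.big_iff_vol (Ba.pc hM) a b

theorem on_iff_big (h : FF K (n + 1)) (P : Pl K) {Λ : BD K} (hΛ : Nef Λ) :
    On n Λ P ↔ Big (res P Λ) := (big_iff_vol (Bm.ff_κ h P) (res_nef h P hΛ)).symm

/-- **RES** -/
theorem res' : RES where
  add _ _ _ _ h P _ a _ b := res_add h P a b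
  smul _ _ _ _ h P c _ a := res_smul h P c a
  sys _ _ _ _ h P := res_mx h P
  pri _ _ _ _ h P _ := res_dv h P
  nef _ _ _ _ h P _ := res_nef h P
  nn _ _ _ _ h P _ := res_nonneg h P
  sec _ _ _ _ h P _ a _ := res_sec0 h P a
  on _ _ _ _ h _ P a := on_iff_big h P a.nef
  des _ _ _ _ h _ _ P := res_dsc h P

theorem In.hy : In.Hy where
  rsd _ _ _ _ := Bm.ff_κ
  add := res'.add
  smul := res'.smul
  sys := res'.sys
  isb _ _ _ _ h _ := Ba.isB_car h
  big _ _ _ _ := Ba.exists_big_vol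
  perm _ _ _ _ h _ := Ba.I_perm h
  dv0 _ _ _ _ h f _ := Ba.I_dv h f

end Vale.Agent.P287D
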