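import Vale.Agent.P287D.Ba.Res

/-!
# P287D, bridge: the intersection numbers of b-divisors are those of the models
-/

set_option linter.all false

open Set
open Vale.Agent.P297 (Place)
open Vale.Agent.P277Z Vale.Agent.P277Z.FI Vale.Agent.P277Z.F5

noncomputable section

namespace Vale.Agent.P287D.Ba

variable {n : ℕ} {K : Type} [Field K] [Algebra ℂ K]

/-- the statement in dimension `n` -/
def IN (n : ℕ) : Prop := ∀ (K : Type) [Field K] [Algebra ℂ K] (M : Mdl n 0 K), M.Proj →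
  ∀ D : Fin n → Div K, I n K (fun i => bar M (D i)) = I.num M D

theorem place_of (ih : IN n) {M : Mdl (n + 1) 0 K} (hM : M.Proj) (P : Pl K) (D : Fin n → Div K) :
    I n P.κ (fun i => res P (bar M (D i))) =
      I.num M (Fin.cons (Finsupp.single P.toPlace 1) D) := by
  obtain ⟨M', ⟨m⟩, h1, h2⟩ := Bm.plm_snc hM (finite_singleton P)
  rw [image_singleton] at h2
  obtain ⟨S, s, hS, e, hR⟩ := Bm.sub h1 P h2
  rw [I.num_place (pc hM) m h1 (Bm.subM h1 (h2.1 _ rfl) s hS hR) h2]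
  refine Eq.trans (congrArg _ (funext fun i => ?_)) (ih P.κ S hS _)
  rw [← bar_pull hM h1 m, res_bar' h1 hS e hR (h2.1 _ rfl)]

theorem trc_of (ih : IN n) {M : Mdl (n + 1) 0 K} (hM : M.Proj) {Z : BD K} {E : Div K}
    (h : Trc M Z E) (D : Fin n → Div K) :
    I (n + 1) K (Fin.cons Z fun i => bar M (D i)) = I.num M (Fin.cons E D) := by
  change ∑ᶠ P : Pl K, Z P * I n P.κ (fun i => res P (bar M (D i))) = _
  have k : ∀ P : Pl K, Z P * I n P.κ (fun i => res P (bar M (D i))) =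
      E P.toPlace * I.num M (Fin.cons (Finsupp.single P.toPlace 1) D) := fun P => by
    rw [place_of ih hM]
    by_cases a : M.Pr P.toPlace
    · rw [h.2 P a]
    · rw [I.cons_off a, mul_zero, mul_zero]
  simp only [k]
  rw [I.cons_eq_sum, ← finsum_mem_range (f := fun Q => E Q * I.num M
    (Fin.cons (Finsupp.single Q 1) D)) pl_inj]
  refine finsum_mem_eq_sum_of_inter_support_eq _ (Set.ext fun Q => ⟨fun a => ⟨?_, a.2⟩, fun a =>
    ⟨Bm.pl_of_pr hM (h.1 Q a.1), a.2⟩⟩)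
  exact Finsupp.mem_support_iff.2 (left_ne_zero_of_mul a.2)

theorem in_all : ∀ n, IN n
  | 0 => fun _ _ _ _ hM D => (I.num_zero (pc hM) D).symm
  | n + 1 => fun K _ _ M hM D => by
    have k := trc_of (in_all n) hM (trc_bar hM (dv_tr (D 0))) (Fin.tail D)
    rw [I.cons_tr, Fin.cons_self_tail, bar_tr hM] at k
    exact k

/-- **I = num** -/
theorem I_bar {M : Mdl n 0 K} (hM : M.Proj) (D : Fin n → Div K) :
    I n K (fun i => bar M (D i)) = I.num M D := in_all n K M hM D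

theorem vol_bar {M : Mdl n 0 K} (hM : M.Proj) (D : Div K) : vol n (bar M D) = I.vol M D :=
  I_bar hM fun _ => D

/-- the number of a place -/
theorem I_place {M : Mdl (n + 1) 0 K} (hM : M.Proj) (P : Pl K) (D : Fin n → Div K) :
    I n P.κ (fun i => res P (bar M (D i))) =
      I.num M (Fin.cons (Finsupp.single P.toPlace 1) D) := place_of (in_all n) hM P D

theorem I_place_off {M : Mdl (n + 1) 0 K} (hM : M.Proj) {P : Pl K} (h : ¬ M.Pr P.toPlace)
    (D : Fin n → Div K) : I n P.κ (fun i => res P (bar M (D i))) = 0 := by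
  rw [I_place hM, I.cons_off h]

/-- **I = num**, the first entry being a Weil b-divisor with trace `E` -/
theorem I_trc {M : Mdl (n + 1) 0 K} (hM : M.Proj) {Z : BD K} {E : Div K} (h : Trc M Z E)
    (D : Fin n → Div K) :
    I (n + 1) K (Fin.cons Z fun i => bar M (D i)) = I.num M (Fin.cons E D) :=
  trc_of (in_all n) hM h D

theorem I_trc' {M : Mdl (n + 1) 0 K} (hM : M.Proj) {β : Fin (n + 1) → BD K}
    {D : Fin (n + 1) → Div K} (h0 : Trc M (β 0) (D 0))
    (h : ∀ i : Fin n, β i.succ = bar M (D i.succ)) : I (n + 1) K β = I.num M D := by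
  have k := I_trc hM h0 (Fin.tail D)
  rw [Fin.cons_self_tail] at k
  rw [← k, ← Fin.cons_self_tail β]
  exact congrArg (fun γ => I (n + 1) K (Fin.cons (β 0) γ)) (funext h)

theorem vol_place {M : Mdl (n + 1) 0 K} (hM : M.Proj) (P : Pl K) (D : Div K) :
    vol n (res P (bar M D)) = I.num M (Fin.cons (Finsupp.single P.toPlace 1) fun _ => D) :=
  I_place hM P fun _ => D

/-- a prime divisor of `V Λ` is a prime divisor of every smooth model on which `Λ` lives -/
theorem pr_of_on {M : Mdl (n + 1) 0 K} (hM : M.Proj) {P : Pl K} {D : Div K}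
    (h : On n (bar M D) P) : M.Pr P.toPlace :=
  by_contra fun e => h.ne' (I_place_off hM e fun _ => D)

theorem on_amp {M : Mdl (n + 1) 0 K} (hM : M.Proj) {P : Pl K} {A : Div K} (hA : M.Amp A)
    (hd : M.Dv A) : On n (bar M A) P ↔ M.Pr P.toPlace :=
  ⟨pr_of_on hM, fun h => (I.prime_pos (pc hM) h (a := fun _ => A)
    fun _ => ⟨hd, hA⟩).trans_eq (vol_place hM P A).symm⟩

/-- symmetry -/
theorem I_perm (hK : FF K n) {β : Fin n → BD K} (σ : Equiv.Perm (Fin n))
    (h : ∀ j, β j ∈ Car K) : I n K (β ∘ σ) = I n K β := by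
  obtain ⟨M, D, hM, k⟩ := com' hK h
  obtain rfl : β = fun i => bar M (D i) := funext fun i => (k i).2.1
  exact (I_bar hM fun i => D (σ i)).trans ((I.num_perm (pc hM) σ D).trans (I_bar hM D).symm)

/-- principal b-divisors -/
theorem I_dv (hK : FF K (n + 1)) (f : K) {β : Fin n → BD K} (h : ∀ j, β j ∈ Car K) :
    I (n + 1) K (Fin.cons (dv f) β) = 0 := by
  obtain ⟨M, D, hM, k⟩ := com' hK h
  obtain rfl : β = fun i => bar M (D i) := funext fun i => (k i).2.1
  rw [I_trc hM (trc_dv hM f)]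
  exact I.cons_prR (pc hM) ((trc_dv hM f).prR hM (dv_mem_Prn f)) D

/-- b-divisors with finite traces on one model have finite traces on all the models -/
theorem fs_on {M : Mdl (n + 1) 0 K} (hM : M.Proj) {Z : BD K} (h : Fs M Z) {Λ : BD K}
    (hΛ : Λ ∈ Car K) : {P | On n Λ P ∧ Z P ≠ 0}.Finite := by
  obtain ⟨M', m, h1, D, -, rfl⟩ := ds_ex hΛ M hM
  exact (h.up hM h1 m).subset fun P k => ⟨pr_of_on h1 k.1, k.2⟩

theorem Fs.isB {M : Mdl (n + 1) 0 K} (hM : M.Proj) {Z : BD K} (h : Fs M Z) : IsB n Z :=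
  fun s _ => fs_on hM h (mx_mem_Car s)

theorem isB_car (hK : FF K (n + 1)) {β : BD K} (h : β ∈ Car K) : IsB n β :=
  let ⟨_, hM⟩ := Bm.exists_mdl hK
  (fs_car hM h).isB hM

theorem big_of_big {M : Mdl n 0 K} (hM : M.Proj) {D : Div K} (h : I.Big M D) : Big (bar M D) :=
  fun s => by
    obtain ⟨M', m, h1, E, hE, e⟩ := ds_ex (mx_mem_Car s) M hM
    obtain ⟨A, a1, a2, a3⟩ := h.pull (pc hM) m h1
    obtain ⟨c, c1, c2⟩ := I.exists_small (hpos h1) (a := fun _ : Fin 1 => A) (fun _ => a2) E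
    have k := eff_of h1 (a3.add (eff_amp (hloc h1) (hpos h1) (dv_sub a1 (FI.dv_smul hE c)) (c2 0)))
    rw [sub_add_sub_cancel, map_sub, map_smul, bar_pull hM h1 m, ← e] at k
    exact ⟨c, c1, k⟩

/-- a polarisation is the divisor of a big system -/
theorem exists_pol {M : Mdl n 0 K} (hM : M.Proj) :
    ∃ H s, Pol M H ∧ mx s = bar M H ∧ Big (mx s) := by
  obtain ⟨H, hH⟩ := (pc hM).pol
  obtain ⟨s, hs⟩ := mx_of_free hM hH.free
  exact ⟨H, s, hH, hs, hs ▸ big_of_big hM (.of_amp hH.dv hH.amp)⟩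

theorem exists_big_vol (hK : FF K n) : ∃ s : Finset K, Big (mx s) ∧ 0 < vol n (mx s) := by
  obtain ⟨M, hM⟩ := Bm.exists_mdl hK
  obtain ⟨H, s, a, b, c⟩ := exists_pol hM
  exact ⟨s, c, by rw [b, vol_bar hM]; exact I.vol_amp (pc hM) a.dv a.amp⟩

theorem fs_of_isB {M : Mdl (n + 1) 0 K} (hM : M.Proj) {Z : BD K} (h : IsB n Z) : Fs M Z := by
  obtain ⟨H, s, a, b, c⟩ := exists_pol hM
  exact (h s c).subset fun P k => ⟨b ▸ (on_amp hM a.amp a.dv).2 k.1, k.2⟩

theorem isB_iff {M : Mdl (n + 1) 0 K} (hM : M.Proj) {Z : BD K} : IsB n Z ↔ Fs M Z :=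
  ⟨fs_of_isB hM, Fs.isB hM⟩

theorem trc_of_isB {M : Mdl (n + 1) 0 K} (hM : M.Proj) {Z : BD K} (h : IsB n Z) :
    ∃ E, Trc M Z E := (fs_of_isB hM h).trc

/-- a Weil b-divisor and finitely many Cartier ones on one model -/
theorem com_isB (hK : FF K (n + 1)) {Z : BD K} (hZ : IsB n Z) {ι : Type*} [Finite ι]
    {β : ι → BD K} (h : ∀ i, β i ∈ Car K) :
    ∃ (M : Mdl (n + 1) 0 K) (E : Div K) (D : ι → Div K), M.Proj ∧ Trc M Z E ∧
      ∀ i, M.Dv (D i) ∧ β i = bar M (D i) ∧ (β i ∈ CarZ K → IsInt (D i)) :=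
  let ⟨M, D, hM, k⟩ := com' hK h
  let ⟨E, e⟩ := trc_of_isB hM hZ
  ⟨M, E, D, hM, e, k⟩

/-- finiteness of the defining sum -/
theorem I_fin (hK : FF K (n + 1)) {Z : BD K} (hZ : IsB n Z) {β : Fin n → BD K}
    (h : ∀ i, β i ∈ Car K) : {P | Z P * I n P.κ (fun i => res P (β i)) ≠ 0}.Finite := by
  obtain ⟨M, E, D, hM, e, k⟩ := com_isB hK hZ h
  obtain rfl : β = fun i => bar M (D i) := funext fun i => (k i).2.1
  exact e.fs.subset fun P a => ⟨by_contra fun b => right_ne_zero_of_mul a (I_place_off hM b D),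
    left_ne_zero_of_mul a⟩

theorem fin_isB (hK : FF K (n + 1)) {Z : BD K} (hZ : IsB n Z) : Module.Finite ℂ (H0 Z) :=
  let ⟨_, hM⟩ := Bm.exists_mdl hK
  (fs_of_isB hM hZ).fin hM

end Vale.Agent.P287D.Ba
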