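import Vale.Agent.P287D.Ba.Sec
import Vale.Agent.P287D.Va.Cone
import Vale.Agent.P287D.I.Prj

/-!
# P287D, bridge: positivity
-/

set_option linter.all false

open Set Filter Topology
open Vale.Agent.P297 (Place)
open Vale.Agent.P297Z.Pl
open Vale.Agent.P277Z Vale.Agent.P277Z.FI

noncomputable section

namespace Vale.Agent.P287D.Ba

variable {n : ℕ} {K : Type} [Field K] [Algebra ℂ K] {M M' : Mdl n 0 K} {A D E G : Div K}
  {Z Z' Λ β : BD K} {s : Finset K}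

/-! ### free systems -/

/-- a local equation of an integral divisor -/
theorem exists_leq (x : M.F) (h : IsInt D) :
    ∃ e : K, e ≠ 0 ∧ ∀ R : Place K, (R.ord e : ℝ) = M.ordAt x R D := by
  choose k hk using h
  have hne : ∀ P ∈ D.support, M.eqn x P ^ k P ≠ 0 := fun P _ => zpow_ne_zero _ (eqn_ne x P)
  refine ⟨_, Finset.prod_ne_zero_iff.2 hne, fun R => ?_⟩
  rw [FI.ord_prod R _ hne, Mdl.ordAt, Finsupp.sum, Int.cast_sum]
  exact Finset.sum_congr rfl fun P _ => by rw [ord_zpow, hk, Int.cast_mul]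

/-- a system whose b-divisor descends is free -/
theorem prin_of_mx (hM : M.Proj) (hs : Nz s) (h : mx s = bar M (sys M s)) : Prin M s := fun x => by
  have hL := hloc hM
  obtain ⟨M', m, hM', hp⟩ := prin_ex hM hs
  obtain ⟨y, hy, e⟩ := m.img.ge x.2
  have hB := (hbir hM hM' m).le ⟨y, hy⟩ x e
  obtain ⟨t, t0, ht⟩ := exists_leq x (int_sys hM s)
  obtain ⟨f, h1, h2, h3⟩ := prin_free hM' hp ⟨y, hy⟩
  have k : ∀ g ∈ s, g * t ∈ M.O x := fun g hg => hL.mem x _ fun Q hQ => by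
    by_cases g0 : g = 0
    · simp [g0]
    have := (mem_sys hM hg).resolve_left g0 Q ⟨x, hQ⟩
    rw [← ordAt_on hL hQ, ← ht] at this
    rw [ord_mul _ g0 t0]
    exact_mod_cast this
  have k2 : M.val (f * t) x ≠ 0 := fun z => by
    obtain ⟨Q, q1, q2⟩ := (hloc hM').van ⟨y, hy⟩ _ (hB.1 (k f h1)) (mul_ne_zero h2 t0)
      ((hB.2 _ (k f h1)).self_of_nhds.trans (e.symm ▸ z))
    obtain ⟨P, rfl⟩ := Bm.pl_of_pr hM' ⟨_, q1⟩
    have := h3 _ q1
    rw [sys_pl hM' s ⟨_, q1⟩, h, bar_ct hM (x := x) fun g hg => ct_of_on q1 g (hB.1 hg),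
      ← ht] at this
    rw [ord_mul _ h2 t0] at q2
    exact q2.ne' (by exact_mod_cast this)
  refine ⟨f, h1, h2, fun g hg => ?_⟩
  have := mul_mem (k g hg) (hL.inv x _ (k f h1) k2)
  rwa [← div_eq_mul_inv, mul_div_mul_right _ _ t0] at this

theorem free_sys (hM : M.Proj) (h : Prin M s) (x : M.F) : M.Free (sys M s) x :=
  let ⟨f, h1, h2, h3⟩ := prin_free hM h x
  ⟨f, mem_sys hM h1, h2, h3⟩

theorem eq_sys (hM : M.Proj) (hD : M.Dv D) (h : mx s = bar M D) : D = sys M s :=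
  (trc_bar hM hD).unique hM (h ▸ trc_mx hM s)

theorem prin_of_ds (hM : M.Proj) (hs : Nz s) (h : Ds M (mx s)) : Prin M s :=
  let ⟨_, a, b⟩ := h
  prin_of_mx hM hs (eq_sys hM a b ▸ b)

theorem free_iff (hM : M.Proj) (hD : M.Dv D) : (∀ x, M.Free D x) ↔ ∃ s, mx s = bar M D :=
  ⟨mx_of_free hM, fun ⟨s, e⟩ => by
    obtain ⟨u, a, b⟩ := exists_nz s
    rw [eq_sys hM hD (b.trans e)]
    exact free_sys hM (prin_of_ds hM a ⟨D, hD, b.trans e⟩)⟩

/-! ### the negativity lemma, descent -/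

theorem mx_le_sys (hM : M.Proj) (s : Finset K) : mx s ≤ bar M (sys M s) := by
  by_cases hs : Nz s
  · exact mx_le hM hs fun _ => mem_sys hM
  · rw [mx_of_not hs]
    exact bar_nonneg hM ((trc_mx hM s).nonneg hM (mx_of_not hs).ge)

theorem Trc.smp_le (hM : M.Proj) (h : Trc M Z D) (e : Smp Z) : Z ≤ bar M D := by
  obtain ⟨E, x, y⟩ := e.ind (p := fun Z => ∃ E, Trc M Z E ∧ Z ≤ bar M E)
    (fun s _ => ⟨_, trc_mx hM s, mx_le_sys hM s⟩)
    (fun a b _ _ ⟨E, x, y⟩ ⟨F, z, w⟩ => ⟨_, x.add z, by rw [map_add]; exact add_le_add y w⟩)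
    fun c a hc _ ⟨E, x, y⟩ => ⟨_, x.smul c, by rw [map_smul]; exact smul_le_smul_of_nonneg_left y hc⟩
  exact x.unique hM h ▸ y

/-- **negativity lemma** on a smooth model -/
theorem Trc.nef_le (hM : M.Proj) (h : Trc M Z D) (e : Nef Z) : Z ≤ bar M D := fun P => by
  obtain ⟨s, hs⟩ := e
  refine sub_nonneg.1 (I.nonneg_of_eps (y := bar M (sys M s) P - mx s P) fun c hc => ?_)
  have := (h.add ((trc_mx hM s).smul c)).smp_le hM (hs c hc) P
  simp only [map_add, map_smul, Pi.add_apply, Pi.smul_apply, smul_eq_mul] at this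
  linarith

theorem ds_iff (hM : M.Proj) : Ds M Z ↔ Z ∈ LinearMap.range (bar M) :=
  ⟨fun ⟨D, _, e⟩ => ⟨D, e.symm⟩, fun ⟨D, e⟩ => e ▸ ds_bar hM D⟩

theorem ds_prn (hM : M.Proj) (h : Z ∈ Prn K) : Ds M Z :=
  let ⟨D, _, e⟩ := prn_bar hM h
  e ▸ ds_bar hM D

theorem Ds.add (hM : M.Proj) (h : Ds M Z) (h' : Ds M Z') : Ds M (Z + Z') :=
  (ds_iff hM).2 (add_mem ((ds_iff hM).1 h) ((ds_iff hM).1 h'))

theorem Ds.sub (hM : M.Proj) (h : Ds M Z) (h' : Ds M Z') : Ds M (Z - Z') :=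
  (ds_iff hM).2 (sub_mem ((ds_iff hM).1 h) ((ds_iff hM).1 h'))

theorem Ds.smul (hM : M.Proj) (h : Ds M Z) (c : ℝ) : Ds M (c • Z) :=
  (ds_iff hM).2 (Submodule.smul_mem _ c ((ds_iff hM).1 h))

theorem Ds.of_smul (hM : M.Proj) {c : ℝ} (hc : c ≠ 0) (h : Ds M (c • Z)) : Ds M Z := by
  simpa [inv_smul_smul₀ hc] using h.smul hM c⁻¹

theorem Ds.eq_bar (hM : M.Proj) (h : Ds M Z) (k : Trc M Z D) : Z = bar M D :=
  let ⟨_, a, b⟩ := h
  (trc_bar hM a).unique hM (b ▸ k) ▸ b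

/-- the summands of a sum of nef classes which descends descend -/
theorem Ds.left (hM : M.Proj) (h : Ds M (Z + Z')) (ha : Nef Z) (hb : Nef Z') : Ds M Z := by
  obtain ⟨D, x⟩ := trc_car hM ha.car
  obtain ⟨E, y⟩ := trc_car hM hb.car
  refine ⟨D, x.1, le_antisymm (x.nef_le hM ha) fun P => ?_⟩
  have a := y.nef_le hM hb P
  have b := congrFun (h.eq_bar hM (x.add y)) P
  simp only [map_add, Pi.add_apply] at b
  linarith

theorem Ds.right (hM : M.Proj) (h : Ds M (Z + Z')) (ha : Nef Z) (hb : Nef Z') : Ds M Z' :=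
  Ds.left hM (add_comm Z Z' ▸ h) hb ha

theorem Ds.of_dsc (hM : M.Proj) (h : Ds M Λ) (k : Dsc Λ β) : Ds M β := by
  obtain ⟨ε, h0, a, b⟩ := k
  have c : Ds M (Λ + ε • β) := Ds.left hM (by simpa using h.add hM h) a.nef b.nef
  exact .of_smul hM h0.ne' (by simpa using c.sub hM h)

/-- numerically trivial classes descend to every smooth model -/
theorem ds_num (hM : M.Proj) (h : Num Z) : Ds M Z :=
  Ds.left hM (by simpa using ds_prn hM (zero_mem _)) h.1 h.2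

/-! ### semiample, ample, nef -/

theorem smp_free (hM : M.Proj) (h : ∀ x, M.Free D x) : Smp (bar M D) :=
  let ⟨s, e⟩ := mx_of_free hM h
  e ▸ smp_mx s

theorem smp_amp (hM : M.Proj) (hA : M.Amp A) : Smp (bar M A) :=
  bar_tr hM A ▸ F5.amp_ind (hpos hM) (p := fun A => Smp (bar M A))
    (fun D E a b => by rw [map_add]; exact a.add b)
    (fun D c hc a => by rw [map_smul]; exact a.smul hc.le) (fun _ h => smp_free hM h.free)
    (F5.dv_tr A) (((hpos hM).tr A).2 hA)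

/-- semiample divisors are the cone of the free systems -/
theorem smp_ind (hM : M.Proj) {p : Div K → Prop} (h0 : p 0) (add : ∀ D E, p D → p E → p (D + E))
    (smul : ∀ D (c : ℝ), 0 < c → p D → p (c • D)) (h1 : ∀ s, Prin M s → p (sys M s))
    (hD : M.Dv D) (h : Smp (bar M D)) : p D := by
  refine h.ind (p := fun Z => ∀ D, M.Dv D → Z = bar M D → p D) (fun s hs D a b => ?_)
    (fun a b x y z w D c d => ?_) (fun c a hc x y D u v => ?_) D hD rfl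
  · exact eq_sys hM a b ▸ h1 s (prin_of_ds hM hs ⟨D, a, b⟩)
  · obtain ⟨E, e1, e2⟩ := Ds.left hM ⟨D, c, d⟩ x.nef y.nef
    obtain ⟨F, f1, f2⟩ := Ds.right hM ⟨D, c, d⟩ x.nef y.nef
    rw [bar_inj hM c (dv_add e1 f1) (by rw [map_add, ← d, ← e2, ← f2])]
    exact add _ _ (z E e1 e2) (w F f1 f2)
  · rcases hc.eq_or_lt with rfl | hc
    · rwa [bar_inj hM u FI.dv_zero (by rw [← v, zero_smul, map_zero])]
    · simpa [smul_inv_smul₀ hc.ne'] using smul _ c hc (y _ (FI.dv_smul u c⁻¹)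
        (by rw [map_smul, ← v, inv_smul_smul₀ hc.ne']))

theorem nef_of_smp (hM : M.Proj) (hD : M.Dv D) (h : Smp (bar M D)) : M.Nef D :=
  smp_ind hM F5.nef_zero (fun _ _ => F5.nef_add) (fun _ _ hc a => F5.nef_smul (hpos hM) a hc.le)
    (fun s k => (hpos hM).free _ (int_sys hM s) (free_sys hM k)) hD h

theorem nef_bar (hM : M.Proj) (h : M.Nef D) : Nef (bar M D) :=
  let ⟨H, hH⟩ := (pc hM).pol
  .of_smp (bar_car hM H) fun ε e => by
    rw [← map_smul, ← map_add]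
    exact smp_amp hM (h _ ((hpos hM).smul _ ε e hH.amp))

/-- the nef cone is closed -/
theorem nef_lim (hM : M.Proj) (h : ∀ ε : ℝ, 0 < ε → M.Nef (D + ε • E)) : M.Nef D := fun A hA => by
  obtain ⟨ε, a, b⟩ := (hpos hM).opn A (-E) hA
  simpa [add_assoc] using h ε a _ b

/-- `β` descends to a nef divisor of `M` -/
def Nf (M : Mdl n 0 K) (β : BD K) : Prop := ∃ D, M.Dv D ∧ M.Nef D ∧ β = bar M D

theorem Nf.up (hM : M.Proj) (hM' : M'.Proj) (m : Mod M' M) (h : Nf M β) : Nf M' β :=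
  let ⟨D, _, a, b⟩ := h
  ⟨_, dv_pull D, (hbir hM hM' m).nef D a, b.trans (bar_pull hM hM' m D).symm⟩

theorem Nf.nef (hM : M.Proj) (h : Nf M β) : Nef β :=
  let ⟨_, _, a, b⟩ := h
  b ▸ nef_bar hM a

theorem Nf.of_eq (hM : M.Proj) (h : Nf M β) (hD : M.Dv D) (e : β = bar M D) : M.Nef D :=
  let ⟨_, a, b, c⟩ := h
  bar_inj hM a hD (c.symm.trans e) ▸ b

theorem nf_smp (hM : M.Proj) (h : Smp β) (k : Ds M β) : Nf M β :=
  let ⟨D, a, b⟩ := k
  ⟨D, a, nef_of_smp hM a (b ▸ h), b⟩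

/-- a nef class descends to a nef divisor of a high model -/
theorem nf_ex (h : Nef β) (M : Mdl n 0 K) (hM : M.Proj) :
    ∃ (M' : Mdl n 0 K) (_ : Mod M' M), M'.Proj ∧ Nf M' β := by
  obtain ⟨M₁, m₁, h₁, k₁⟩ := ds_ex h.car M hM
  obtain ⟨s, hs⟩ := h
  obtain ⟨M₂, m₂, h₂, E, e1, e2⟩ := ds_ex (mx_mem_Car s) M₁ h₁
  obtain ⟨D, d1, d2⟩ := k₁.up h₁ h₂ m₂
  refine ⟨M₂, F5.Mod.comp m₂ m₁, h₂, D, d1, nef_lim h₂ (E := E) fun ε e => ?_, d2⟩
  refine nef_of_smp h₂ (dv_add d1 (FI.dv_smul e1 ε)) ?_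
  rw [map_add, map_smul, ← d2, ← e2]
  exact hs ε e

/-- **COM** with nef classes -/
theorem comN (hM : M.Proj) {ι : Type*} [Finite ι] {β : ι → BD K} (hc : ∀ i, β i ∈ Car K)
    {T : Set (Pl K)} (hT : T.Finite) {T' : Set (Place K)} (hT' : T'.Finite) :
    ∃ (M' : Mdl n 0 K) (_ : Mod M' M) (U : Set (Place K)) (D : ι → Div K), M'.Proj ∧ U.Finite ∧
      M'.Snc U ∧ Exc M' M ⊆ U ∧ (∀ P ∈ T, P.toPlace ∈ U) ∧ (∀ Q ∈ T', M'.Pr Q → Q ∈ U) ∧
      ∀ i, M'.Dv (D i) ∧ β i = bar M' (D i) ∧ ((D i).support : Set (Place K)) ⊆ U ∧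
        (β i ∈ CarZ K → IsInt (D i)) ∧ (Nef (β i) → M'.Nef (D i)) := by
  obtain ⟨M₁, m₁, h₁, k₁⟩ := simul (p := fun i M => Nf M (β i)) (toFinite {i | Nef (β i)})
    (fun _ _ _ _ a b m => Nf.up a b m) (fun _ => nf_ex) hM
  obtain ⟨M₂, m₂, U, D, h₂, a, b, c, d, e, f⟩ := comF h₁ hc hT (hT'.union (hbir hM h₁ m₁).fin)
  refine ⟨M₂, F5.Mod.comp m₂ m₁, U, D, h₂, a, b, fun Q hQ => ?_, d, fun Q hQ => e Q (.inl hQ),
    fun i => ⟨(f i).1, (f i).2.1, (f i).2.2.1, (f i).2.2.2, fun g =>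
      ((k₁ i g).up h₁ h₂ m₂).of_eq h₂ (f i).1 (f i).2.1⟩⟩
  by_cases k : M₁.Pr Q
  · exact e Q (.inr ⟨k, hQ.2⟩) hQ.1
  · exact c ⟨hQ.1, k⟩

theorem comN' (hK : FF K n) {ι : Type*} [Finite ι] {β : ι → BD K} (hc : ∀ i, β i ∈ Car K) :
    ∃ (M : Mdl n 0 K) (D : ι → Div K), M.Proj ∧ ∀ i, M.Dv (D i) ∧ β i = bar M (D i) ∧
      (β i ∈ CarZ K → IsInt (D i)) ∧ (Nef (β i) → M.Nef (D i)) := by
  obtain ⟨M, hM⟩ := Bm.exists_mdl hK
  obtain ⟨M', -, U, D, a, -, -, -, -, -, h⟩ := comN hM hc finite_empty finite_empty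
  exact ⟨M', D, a, fun i => ⟨(h i).1, (h i).2.1, (h i).2.2.2⟩⟩

/-! ### big, pseudo-effective -/

theorem big_amp (hM : M.Proj) (hA : M.Amp A) : Big (bar M A) := fun s => by
  obtain ⟨ε, a, b⟩ := (hpos hM).opn A (-sys M s) hA
  refine ⟨ε, a, (smp_amp hM b).eff.mono ?_⟩
  rw [smul_neg, ← sub_eq_add_neg, map_sub, map_smul]
  exact sub_le_sub_left (smul_le_smul_of_nonneg_left (mx_le_sys hM s) a.le) _

theorem big_of (hM : M.Proj) (h : I.Big M D) : Big (bar M D) :=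
  let ⟨_, _, a, b⟩ := h
  (big_amp hM a).of_sub (map_sub (bar M) _ _ ▸ (eff_of hM b).psef)

theorem psef_of (hM : M.Proj) (h : F5.Psef M D) : Psef (bar M D) :=
  let ⟨H, hH⟩ := (pc hM).pol
  .of_eff (bar_car hM H) fun ε e => by
    rw [← map_smul, ← map_add]
    exact eff_of hM (h _ (FI.dv_smul hH.dv ε) ((hpos hM).smul _ ε e hH.amp))

theorem Trc.big (hM : M.Proj) (h : Trc M Z D) (e : Big Z) : I.Big M D :=
  let ⟨H, hH⟩ := (pc hM).pol
  let ⟨ε, a, b⟩ := e.exists_eff (bar_car hM H)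
  ⟨_, FI.dv_smul hH.dv ε, (hpos hM).smul _ ε a hH.amp,
    (h.sub ((trc_bar hM hH.dv).smul ε)).eff hM b⟩

theorem Trc.psef (hM : M.Proj) (h : Trc M Z D) (e : Psef Z) : F5.Psef M D := fun _ a b =>
  (h.add (trc_bar hM a)).eff hM (e.add_big (big_amp hM b)).eff

theorem Trc.big_iff (hM : M.Proj) (h : Trc M Z D) (e : bar M D ≤ Z) : Big Z ↔ I.Big M D :=
  ⟨h.big hM, fun k => (big_of hM k).mono e⟩

theorem Trc.psef_iff (hM : M.Proj) (h : Trc M Z D) (e : bar M D ≤ Z) : Psef Z ↔ F5.Psef M D :=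
  ⟨h.psef hM, fun k => (psef_of hM k).mono e⟩

theorem big_bar (hM : M.Proj) (hD : M.Dv D) : Big (bar M D) ↔ I.Big M D :=
  (trc_bar hM hD).big_iff hM le_rfl

theorem psef_bar (hM : M.Proj) (hD : M.Dv D) : Psef (bar M D) ↔ F5.Psef M D :=
  (trc_bar hM hD).psef_iff hM le_rfl

theorem exists_big (hK : FF K n) : ∃ s : Finset K, Nz s ∧ Big (mx s) := by
  obtain ⟨M, hM⟩ := Bm.exists_mdl hK
  obtain ⟨H, hH⟩ := (pc hM).pol
  obtain ⟨s, e⟩ := mx_of_free hM hH.free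
  obtain ⟨u, a, b⟩ := exists_nz s
  exact ⟨u, a, b ▸ e ▸ big_amp hM hH.amp⟩

/-! ### the model is `V (bar A)` -/

theorem dsc_bar (hM : M.Proj) (hA : M.Amp A) (D : Div K) : Dsc (bar M A) (bar M D) := by
  obtain ⟨ε, a, b⟩ := FI.amp_seg (hpos hM) hA D
  refine ⟨ε, a, ?_, ?_⟩
  · simpa using smp_amp hM (b ε (abs_of_pos a).le)
  · simpa [sub_eq_add_neg] using smp_amp hM (b (-ε) (by rw [abs_neg, abs_of_pos a]))

theorem dsc_iff (hM : M.Proj) (hA : M.Amp A) : Dsc (bar M A) β ↔ Ds M β :=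
  ⟨(ds_bar hM A).of_dsc hM, fun ⟨D, _, e⟩ => e ▸ dsc_bar hM hA D⟩

theorem ampOn_bar (hM : M.Proj) (hA : M.Amp A) (hD : M.Amp D) : AmpOn (bar M A) (bar M D) :=
  let ⟨ε, a, b⟩ := (hpos hM).opn D (-A) hD
  ⟨dsc_bar hM hA D, ε, a, by simpa [sub_eq_add_neg] using smp_amp hM b⟩

theorem amp_of_smp (hM : M.Proj) (hA : M.Amp A) (h : Smp (bar M D - bar M A)) : M.Amp D := by
  rw [← map_sub, ← bar_tr hM] at h
  refine ((hpos hM).tr D).1 ?_
  have := nef_of_smp hM (F5.dv_tr _) h _ (((hpos hM).tr A).2 hA)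
  rwa [← F5.trl_apply, ← F5.trl_apply, ← map_add, sub_add_cancel] at this

theorem ampOn_iff (hM : M.Proj) (hA : M.Amp A) : AmpOn (bar M A) (bar M D) ↔ M.Amp D :=
  ⟨fun ⟨_, ε, a, b⟩ => amp_of_smp hM ((hpos hM).smul _ ε a hA) (by rwa [map_smul]),
    ampOn_bar hM hA⟩

theorem ampOn_iff' (hM : M.Proj) (hA : M.Amp A) :
    AmpOn (bar M A) β ↔ ∃ D, M.Dv D ∧ M.Amp D ∧ β = bar M D :=
  ⟨fun h => let ⟨D, a, b⟩ := (dsc_iff hM hA).1 h.1; ⟨D, a, (ampOn_iff hM hA).1 (b ▸ h), b⟩,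
    fun ⟨_, _, a, b⟩ => b ▸ ampOn_bar hM hA a⟩

/-- Kodaira's lemma on a log resolution -/
theorem kod (hM : M.Proj) (hD : M.Dv D) (h1 : M.Nef D) (h2 : I.Big M D) {T : Set (Place K)}
    (hT : T.Finite) : ∃ (M' : Mdl n 0 K) (_ : Mod M' M) (U : Set (Place K)) (E : Div K),
      M'.Proj ∧ U.Finite ∧ M'.Snc U ∧ Exc M' M ⊆ U ∧ (∀ Q ∈ T, M'.Pr Q → Q ∈ U) ∧ 0 ≤ E ∧
      (E.support : Set (Place K)) ⊆ U ∧
      ∀ ε : ℝ, 0 < ε → ε ≤ 1 → M'.Amp (M.pull M' D - ε • E) := by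
  obtain ⟨A, a1, a2, G, g⟩ := h2
  obtain ⟨M', m, U, hM', u1, u2, u3, u4, -⟩ := com0 hM finite_empty (fun _ h => h.elim)
    (hT.union G.support.finite_toSet)
  have b := hbir hM hM' m
  obtain ⟨H, c1, -, c2, c3⟩ := b.amp
  obtain ⟨η, e1, e2⟩ := c3 A a2
  have k : M'.Amp (M.pull M' D - (M.pull M' G + η • H)) :=
    F5.amp_congr (hloc hM') (hpos hM') e2 (by
      have := neg_mem (F5.pull_prR (hloc hM) (hloc hM') b g.2)
      simp only [← pl_apply b, map_sub] at this ⊢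
      exact (show _ = _ by abel).subst (motive := (· ∈ F5.PrR M')) this)
  refine ⟨M', m, U, M.pull M' G + η • H, hM', u1, u2, u3, fun Q hQ => u4 Q (.inl hQ),
    add_nonneg (pull_nonneg b g.1) (smul_nonneg e1.le c2), fun Q hQ => ?_, fun ε x y => ?_⟩
  · by_contra z
    refine Finsupp.mem_support_iff.1 hQ ?_
    have z1 : H Q = 0 := by_contra fun w => z (u3 (c1.le (Finsupp.mem_support_iff.2 w)))
    have z2 : M.pull M' G Q = 0 := by_contra fun w => z ((pull_supp (hloc hM) b G w).elim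
      (fun v => u4 Q (.inr (Finsupp.mem_support_iff.2 v))
        (dv_pull G Q (Finsupp.mem_support_iff.2 w))) fun v => u3 v)
    simp [z1, z2]
  · have := F5.nef_smul (hpos hM') (b.nef D h1) (sub_nonneg.2 y) _ ((hpos hM').smul _ ε x k)
    exact (show _ = _ by module).subst (motive := M'.Amp) this

end Vale.Agent.P287D.Ba
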