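import Vale.Agent.P287D.Ba.Pos
import Vale.Agent.P287D.Ba.I
import Vale.Agent.P287D.Ba.Cn

/-!
# P287D, bridge: a smooth model is the variety of an ample divisor
-/

set_option linter.all false

open Set Filter Topology
open Vale.Agent.P297 (Place)
open Vale.Agent.P277Z Vale.Agent.P277Z.FI

noncomputable section

namespace Vale.Agent.P287D

variable {n : ℕ} {K : Type} [Field K] [Algebra ℂ K]

theorem exists_qlin (T : Finset ℝ) :
    ∃ φ : ℝ →ₗ[ℚ] ℚ, ∀ c ∈ T, 0 < c → 0 < φ c := by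
  let b := Module.Basis.ofVectorSpace ℚ ℝ
  choose u _ _ hu using Real.exists_seq_rat_strictMono_tendsto
  have k : ∀ c : ℝ, Tendsto (fun m => ((b.constr ℚ (fun i => u (b i) m) c : ℚ) : ℝ)) atTop (𝓝 c) :=
    fun c => by
      conv => arg 3; rw [← b.linearCombination_repr c, Finsupp.linearCombination_apply]
      simp only [Module.Basis.constr_apply, Finsupp.sum, smul_eq_mul, Rat.cast_sum, Rat.cast_mul,
        Rat.smul_def]
      exact tendsto_finsetSum _ fun i _ => (hu _).const_mul _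
  obtain ⟨m, hm⟩ := ((eventually_all_finset (T.filter (0 < ·))).2 fun c hc =>
    (k c).eventually_const_lt (Finset.mem_filter.1 hc).2).exists
  exact ⟨_, fun c a d => by exact_mod_cast hm c (Finset.mem_filter.2 ⟨a, d⟩)⟩

/-- a multiple of a rational semiample class is free -/
theorem Smp.exists_nsmul {β : BD K} (h : Smp β) (hq : ∀ P, ∃ q : ℚ, β P = q) :
    ∃ (m : ℕ) (s : Finset K), 0 < m ∧ Nz s ∧ (m : ℝ) • β = mx s := by
  classical
  obtain ⟨l, hl, e⟩ := h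
  obtain ⟨φ, hφ⟩ := exists_qlin (insert 1 (l.support.image l))
  have h1 := hφ 1 (Finset.mem_insert_self _ _) one_pos
  have e' : β = ∑ s ∈ l.support, ((φ (l s) / φ 1 : ℚ) : ℝ) • mx s := funext fun P => by
    obtain ⟨q, hq⟩ := hq P
    have k := congrArg φ (hq.symm.trans (congrFun e P))
    simp only [cmb_sum, Finset.sum_apply, Pi.smul_apply, smul_eq_mul, map_sum, mx_apply] at k ⊢
    rw [← mul_one (q : ℝ), ← Rat.smul_def, map_smul, smul_eq_mul, ← eq_div_iff h1.ne'] at k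
    rw [hq, k, Finset.sum_div, Rat.cast_sum]
    refine Finset.sum_congr rfl fun s _ => ?_
    rw [mul_comm (l s), ← zsmul_eq_mul, map_zsmul, zsmul_eq_mul]
    push_cast
    ring
  rw [e']
  refine Finset.sum_induction _ (fun β : BD K => ∃ (m : ℕ) (s : Finset K), 0 < m ∧ Nz s ∧
    (m : ℝ) • β = mx s) ?_ ⟨1, {1}, one_pos, .single one_ne_zero, by simp [mx_single]⟩ fun s hs => ?_
  · rintro a b ⟨m, s, m0, -, x⟩ ⟨k, u, k0, -, y⟩
    obtain ⟨s', -, x'⟩ := exists_mx_nsmul s k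
    obtain ⟨u', -, y'⟩ := exists_mx_nsmul u m
    obtain ⟨w, z, z'⟩ := exists_mx_add s' u'
    exact ⟨m * k, w, mul_pos m0 k0, z, by rw [z', x', y', ← x, ← y]; push_cast; module⟩
  · have p : 0 < φ (l s) / φ 1 := div_pos (hφ _ (Finset.mem_insert_of_mem
      (Finset.mem_image_of_mem l hs)) ((hl s).lt_of_ne' (Finsupp.mem_support_iff.1 hs))) h1
    generalize φ (l s) / φ 1 = q at p
    obtain ⟨w, x, y⟩ := exists_mx_nsmul s q.num.toNat
    refine ⟨q.den, w, q.den_pos, x, ?_⟩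
    rw [y, smul_smul, ← Int.cast_natCast q.num.toNat, Int.toNat_of_nonneg (Rat.num_nonneg.2 p.le)]
    congr 1
    exact_mod_cast Rat.den_mul_eq_num q

namespace Ba

theorem trc_cn {M : Mdl n 0 K} (hM : M.Proj) : Trc M (cn K n) (KM M) :=
  ⟨KM_dv hM, fun _ => KM_pr hM⟩

theorem bar_le_cn {M : Mdl n 0 K} (hM : M.Proj) : bar M (KM M) ≤ cn K n := fun P =>
  sub_nonneg.1 (disc_nonneg hM P)

/-- a multiple of a rational semiample divisor is free -/
theorem free_of_smp {M : Mdl n 0 K} (hM : M.Proj) {D : Div K} (hD : M.Dv D) (hq : IsRat D)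
    (h : Smp (bar M D)) : ∃ m : ℕ, 0 < m ∧ IsInt ((m : ℝ) • D) ∧ ∀ x, M.Free ((m : ℝ) • D) x := by
  obtain ⟨m, s, a, -, b⟩ := h.exists_nsmul (bar_carQ hM hq).rat
  rw [← map_smul] at b
  exact ⟨m, a, eq_sys hM (FI.dv_smul hD _) b.symm ▸ int_sys hM s,
    (free_iff hM (FI.dv_smul hD _)).2 ⟨s, b.symm⟩⟩

variable {M : Mdl (n + 1) 0 K} {A D : Div K} {Z β : BD K} {P : Pl K}

theorem on_iff (hM : M.Proj) (hA : M.Amp A) : On n (bar M A) P ↔ M.Pr P.toPlace :=
  bar_tr hM A ▸ on_amp hM (((hpos hM).tr A).2 hA) (F5.dv_tr A)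

theorem Trc.hull (hM : M.Proj) (hA : M.Amp A) (h : Trc M Z D) : Hull n (bar M A) Z (bar M D) :=
  ⟨dsc_bar hM hA D, fun P k => (bar_pr hM (pr_of_on hM k) D).trans (h.2 P (pr_of_on hM k)).symm⟩

theorem hull_iff (hM : M.Proj) (hA : M.Amp A) :
    Hull n (bar M A) Z β ↔ ∃ D, Trc M Z D ∧ β = bar M D :=
  ⟨fun h => let ⟨D, a, b⟩ := (dsc_iff hM hA).1 h.1
    ⟨D, ⟨a, fun P k => (h.2 P ((on_iff hM hA).2 k)).symm.trans (b ▸ bar_pr hM k D)⟩, b⟩,
    fun ⟨_, a, b⟩ => b ▸ a.hull hM hA⟩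

theorem hull_δ (hM : M.Proj) (hA : M.Amp A) (h : On n (bar M A) P) :
    ∃ β ∈ CarZ K, Hull n (bar M A) P.δ β :=
  ⟨_, bar_carZ hM (IsInt.single _), (trc_δ (pr_of_on hM h)).hull hM hA⟩

theorem qf_amp (hM : M.Proj) (hA : M.Amp A) : QF n (bar M A) := fun _ h =>
  let ⟨β, a, b⟩ := hull_δ hM hA h
  ⟨β, CarZ.carQ a, b⟩

theorem dsc_off (hM : M.Proj) (hA : M.Amp A) (h : ¬ On n (bar M A) P) :
    1 ≤ dsc (n + 1) (bar M (KM M)) P := disc_one hM fun k => h ((on_iff hM hA).2 k)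

theorem term_amp (hM : M.Proj) (hA : M.Amp A) : Term n (bar M A) (bar M (KM M)) :=
  ⟨smp_amp hM hA, big_amp hM hA, (trc_cn hM).hull hM hA,
    fun _ h => one_pos.trans_le (dsc_off hM hA h)⟩

theorem KM_carZ {M : Mdl n 0 K} (hM : M.Proj) : bar M (KM M) ∈ CarZ K := bar_carZ hM (KM_int hM)

/-- the canonical class of the smooth model is determined -/
theorem term_eq (hM : M.Proj) (hA : M.Amp A) (h : Term n (bar M A) β) : β = bar M (KM M) :=
  let ⟨_, a, b⟩ := (hull_iff hM hA).1 h.hull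
  a.unique hM (trc_cn hM) ▸ b

/-- a class which descends to the model has its primes among the primes of the model, and its
Cartier divisors descend -/
theorem Ds.pr (hM : M.Proj) {Λ : BD K} (h : Ds M Λ) (k : On n Λ P) : M.Pr P.toPlace :=
  let ⟨_, _, e⟩ := h
  pr_of_on hM (e ▸ k)

end Ba

end Vale.Agent.P287D
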