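import Vale.Agent.P287D.Ba.Bar
import Vale.Agent.P287D.Bm.Sub
import Vale.Agent.P287D.Va.Bas
import Vale.Agent.P287D.I.Pos

/-!
# P287D, bridge: traces, sections, real linear systems
-/

set_option linter.all false

open Set
open Vale.Agent.P297 (Place)
open Vale.Agent.P297Z.Pl
open Vale.Agent.P277Z Vale.Agent.P277Z.FI

noncomputable section

namespace Vale.Agent.P287D.Ba

variable {n : ℕ} {K : Type} [Field K] [Algebra ℂ K] {M M' : Mdl n 0 K} {D E G : Div K}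
  {Z Z' : BD K} {f : K}

theorem pc (hM : M.Proj) : I.Pc M := ⟨hM, cpt M⟩

theorem forall_pr (hM : M.Proj) {p : Place K → Prop} :
    (∀ Q, M.Pr Q → p Q) ↔ ∀ P : Pl K, M.Pr P.toPlace → p P.toPlace :=
  ⟨fun h _ => h _, fun h Q hQ => by
    obtain ⟨P, rfl⟩ := Bm.pl_of_pr hM hQ
    exact h P hQ⟩

theorem bar_le_iff (hM : M.Proj) : bar M D ≤ bar M E ↔ ∀ Q, M.Pr Q → D Q ≤ E Q :=
  ⟨fun h => (forall_pr hM).2 fun P hP => by simpa only [bar_pr hM hP] using h P, bar_mono' hM⟩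

theorem bar_nonneg_iff (hM : M.Proj) : 0 ≤ bar M D ↔ ∀ Q, M.Pr Q → 0 ≤ D Q := by
  simpa using bar_le_iff hM (D := 0) (E := D)

theorem le_of_bar (hM : M.Proj) (hD : M.Dv D) (hE : M.Dv E) (h : bar M D ≤ bar M E) : D ≤ E :=
  fun Q => by
    by_cases hQ : M.Pr Q
    · exact (bar_le_iff hM).1 h Q hQ
    · rw [dv_iff.1 hD Q hQ, dv_iff.1 hE Q hQ]

theorem nonneg_of_bar (hM : M.Proj) (hD : M.Dv D) (h : 0 ≤ bar M D) : 0 ≤ D :=
  le_of_bar hM FI.dv_zero hD (by rwa [map_zero])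

theorem bar_inj (hM : M.Proj) (hD : M.Dv D) (hE : M.Dv E) (h : bar M D = bar M E) : D = E :=
  le_antisymm (le_of_bar hM hD hE h.le) (le_of_bar hM hE hD h.ge)

theorem eq_pull (hM : M.Proj) (hM' : M'.Proj) (m : Mod M' M) (hE : M'.Dv E)
    (h : bar M' E = bar M D) : E = M.pull M' D :=
  bar_inj hM' hE (dv_pull D) (h.trans (bar_pull hM hM' m D).symm)

theorem int_of_bar (hM : M.Proj) (hD : M.Dv D) (h : ∀ P, ∃ k : ℤ, bar M D P = k) : IsInt D :=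
  fun Q => by
    by_cases hQ : M.Pr Q
    · obtain ⟨P, rfl⟩ := Bm.pl_of_pr hM hQ
      exact bar_pr hM hQ D ▸ h P
    · exact ⟨0, by simpa using dv_iff.1 hD Q hQ⟩

theorem rat_of_bar (hM : M.Proj) (hD : M.Dv D) (h : ∀ P, ∃ q : ℚ, bar M D P = q) : IsRat D :=
  fun Q => by
    by_cases hQ : M.Pr Q
    · obtain ⟨P, rfl⟩ := Bm.pl_of_pr hM hQ
      exact bar_pr hM hQ D ▸ h P
    · exact ⟨0, by simpa using dv_iff.1 hD Q hQ⟩

theorem rat_mul (h : IsRat D) : ∃ m : ℕ, 0 < m ∧ IsInt ((m : ℝ) • D) := by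
  choose q hq using h
  refine ⟨∏ Q ∈ D.support, (q Q).den, Finset.prod_pos fun Q _ => (q Q).den_pos, fun Q => ?_⟩
  by_cases e : Q ∈ D.support
  · obtain ⟨c, hc⟩ := Finset.dvd_prod_of_mem (fun Q => (q Q).den) e
    refine ⟨c * (q Q).num, ?_⟩
    have : ((q Q).den : ℝ) * q Q = (q Q).num := by exact_mod_cast Rat.den_mul_eq_num (q Q)
    rw [hc, Finsupp.smul_apply, hq, smul_eq_mul]
    push_cast
    rw [← this]
    ring
  · exact ⟨0, by simp [Finsupp.notMem_support_iff.1 e]⟩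

theorem bar_carQ (hM : M.Proj) (h : IsRat D) : CarQ (bar M D) :=
  let ⟨m, a, b⟩ := rat_mul h
  ⟨m, a, map_smul (bar M) (m : ℝ) D ▸ bar_carZ hM b⟩

/-- a Cartier b-divisor with integral values is integral -/
theorem carZ_of_int (hK : FF K n) {β : BD K} (h : β ∈ Car K) (e : ∀ P, ∃ k : ℤ, β P = k) :
    β ∈ CarZ K := by
  obtain ⟨M, D, a, b, rfl, -⟩ := com1 hK h
  exact bar_carZ a (int_of_bar a b e)

/-- a Cartier b-divisor with rational values is rational -/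
theorem carQ_of_rat (hK : FF K n) {β : BD K} (h : β ∈ Car K) (e : ∀ P, ∃ q : ℚ, β P = q) :
    CarQ β := by
  obtain ⟨M, D, a, b, rfl, -⟩ := com1 hK h
  exact bar_carQ a (rat_of_bar a b e)

/-! ### traces -/

/-- `D` is the trace of `Z` on `M` -/
def Trc (M : Mdl n 0 K) (Z : BD K) (D : Div K) : Prop :=
  M.Dv D ∧ ∀ P : Pl K, M.Pr P.toPlace → Z P = D P.toPlace

/-- the trace of `Z` on `M` is a finite sum -/
def Fs (M : Mdl n 0 K) (Z : BD K) : Prop := {P : Pl K | M.Pr P.toPlace ∧ Z P ≠ 0}.Finite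

theorem trc_bar (hM : M.Proj) (hD : M.Dv D) : Trc M (bar M D) D := ⟨hD, fun _ h => bar_pr hM h D⟩

theorem trc_dv (hM : M.Proj) (f : K) : Trc M (dv f) (M.div f) :=
  bar_div hM f ▸ trc_bar hM (FI.dv_div f)

theorem trc_mx (hM : M.Proj) (s : Finset K) : Trc M (mx s) (sys M s) :=
  ⟨dv_sys s, fun _ h => (sys_pl hM s h).symm⟩

theorem trc_δ {P : Pl K} (h : M.Pr P.toPlace) : Trc M P.δ (Finsupp.single P.toPlace 1) :=
  ⟨dv_single h 1, fun Q _ => by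
    by_cases e : Q = P
    · rw [e, P.δ_self, Finsupp.single_eq_same]
    · rw [Pl.δ_ne e, Finsupp.single_eq_of_ne fun k => e (pl_inj k)]⟩

theorem trc_δ_off {P : Pl K} (h : ¬ M.Pr P.toPlace) : Trc M P.δ 0 :=
  ⟨FI.dv_zero, fun Q k => Pl.δ_ne fun e => h (e ▸ k)⟩

theorem trc_zero : Trc M 0 0 := ⟨FI.dv_zero, fun _ _ => rfl⟩

theorem Trc.add (h : Trc M Z D) (h' : Trc M Z' E) : Trc M (Z + Z') (D + E) :=
  ⟨dv_add h.1 h'.1, fun P k => by rw [Pi.add_apply, h.2 P k, h'.2 P k, Finsupp.add_apply]⟩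

theorem Trc.smul (h : Trc M Z D) (c : ℝ) : Trc M (c • Z) (c • D) :=
  ⟨FI.dv_smul h.1 c, fun P k => by rw [Pi.smul_apply, h.2 P k, Finsupp.smul_apply]⟩

theorem Trc.neg (h : Trc M Z D) : Trc M (-Z) (-D) := by simpa using h.smul (-1)

theorem Trc.sub (h : Trc M Z D) (h' : Trc M Z' E) : Trc M (Z - Z') (D - E) := by
  simpa only [sub_eq_add_neg] using h.add h'.neg

theorem Trc.mono (hM : M.Proj) (h : Trc M Z D) (h' : Trc M Z' E) (e : Z ≤ Z') : D ≤ E := fun Q => by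
  by_cases hQ : M.Pr Q
  · obtain ⟨P, rfl⟩ := Bm.pl_of_pr hM hQ
    rw [← h.2 P hQ, ← h'.2 P hQ]; exact e P
  · rw [dv_iff.1 h.1 Q hQ, dv_iff.1 h'.1 Q hQ]

theorem Trc.nonneg (hM : M.Proj) (h : Trc M Z D) (e : 0 ≤ Z) : 0 ≤ D := trc_zero.mono hM h e

theorem Trc.unique (hM : M.Proj) (h : Trc M Z D) (h' : Trc M Z E) : D = E :=
  le_antisymm (h.mono hM h' le_rfl) (h'.mono hM h le_rfl)

theorem Trc.int (hM : M.Proj) (h : Trc M Z D) (e : ∀ P, ∃ k : ℤ, Z P = k) : IsInt D := fun Q => by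
  by_cases hQ : M.Pr Q
  · obtain ⟨P, rfl⟩ := Bm.pl_of_pr hM hQ
    exact h.2 P hQ ▸ e P
  · exact ⟨0, by simpa using dv_iff.1 h.1 Q hQ⟩

theorem Trc.down (hM : M.Proj) (hM' : M'.Proj) (m : Mod M' M) (h : Trc M' Z D) :
    Trc M Z (M.tr D) :=
  ⟨F5.dv_tr D, fun P k => (h.2 P (pr_up hM hM' m k)).trans (F5.tr_apply k D).symm⟩

theorem Trc.fs (h : Trc M Z D) : Fs M Z :=
  (D.support.finite_toSet.preimage pl_inj.injOn).subset fun P k =>
    Finsupp.mem_support_iff.2 (h.2 P k.1 ▸ k.2)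

theorem Fs.trc (h : Fs M Z) : ∃ D, Trc M Z D := by
  classical
  have k : (Function.support fun Q => if M.Pr Q then Function.extend Pl.toPlace Z 0 Q else 0).Finite :=
    (h.image Pl.toPlace).subset fun Q hQ => by
      by_cases a : M.Pr Q
      · by_cases b : ∃ P : Pl K, P.toPlace = Q
        · obtain ⟨P, rfl⟩ := b
          exact ⟨P, ⟨a, by simpa [a, pl_inj.extend_apply] using hQ⟩, rfl⟩
        · simp [Function.extend_apply' _ _ _ b] at hQ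
      · simp [a] at hQ
  exact ⟨mkDiv _, dv_iff.2 fun Q a => mkDiv_zero (if_neg a), fun P a => by
    rw [mkDiv_apply k, if_pos a, pl_inj.extend_apply]⟩

theorem Fs.up (hM : M.Proj) (hM' : M'.Proj) (m : Mod M' M) (h : Fs M Z) : Fs M' Z :=
  (h.union ((hbir hM hM' m).fin.preimage pl_inj.injOn)).subset fun P k =>
    (em (M.Pr P.toPlace)).imp (fun a => ⟨a, k.2⟩) fun a => ⟨k.1, a⟩

theorem Fs.down (hM : M.Proj) (hM' : M'.Proj) (m : Mod M' M) (h : Fs M' Z) : Fs M Z :=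
  h.subset fun _ k => ⟨pr_up hM hM' m k.1, k.2⟩

theorem fs_car (hM : M.Proj) {β : BD K} (h : β ∈ Car K) : Fs M β := by
  obtain ⟨M', m, a, D, b, rfl⟩ := ds_ex h M hM
  exact (trc_bar a b).fs.down hM a m

theorem trc_car (hM : M.Proj) {β : BD K} (h : β ∈ Car K) : ∃ D, Trc M β D := (fs_car hM h).trc

theorem Trc.prR (hM : M.Proj) (h : Trc M Z D) (e : Z ∈ Prn K) : D ∈ F5.PrR M := by
  obtain ⟨E, a, rfl⟩ := prn_bar hM e
  exact (trc_bar hM (F5.prR_dv a)).unique hM h ▸ a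

theorem prn_iff (hM : M.Proj) (hD : M.Dv D) : bar M D ∈ Prn K ↔ D ∈ F5.PrR M :=
  ⟨(trc_bar hM hD).prR hM, bar_prR hM⟩

/-- an effective principal b-divisor vanishes -/
theorem prn_zero (hK : FF K n) {β : BD K} (h : β ∈ Prn K) (e : 0 ≤ β) : β = 0 := by
  obtain ⟨M, hM⟩ := Bm.exists_mdl hK
  obtain ⟨D, a, rfl⟩ := prn_bar hM h
  cases n with
  | zero => exact funext fun P => (Bm.no_pl hK P).elim
  | succ n =>
    obtain ⟨H, hH⟩ := (pc hM).pol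
    rw [I.eff_eq_zero (pc hM) (nonneg_of_bar hM (F5.prR_dv a) e) (F5.prR_dv a)
      (a := fun _ => H) (fun _ => ⟨hH.dv, hH.amp⟩) (I.cons_prR (pc hM) a _).le, map_zero]

/-! ### sections -/

theorem Trc.sec (hM : M.Proj) (h : Trc M Z D) (hf : Sec Z f) : f ∈ M.H0 D :=
  hf.imp_right fun e => (forall_pr hM).2 fun P k => h.2 P k ▸ e P

theorem sec_of_mem (hM : M.Proj) (hf : f ∈ M.H0 D) : Sec (bar M D) f :=
  hf.imp_right fun e => by
    rw [← bar_div hM, ← map_add]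
    exact bar_nonneg' hM fun Q hQ => by simpa [div_apply (hloc hM) f hQ] using e Q hQ

theorem sec_bar (hM : M.Proj) : Sec (bar M D) f ↔ f ∈ M.H0 D :=
  ⟨fun h => h.imp_right fun e => (forall_pr hM).2 fun P k => bar_pr hM k D ▸ e P, sec_of_mem hM⟩

theorem H0_bar (hM : M.Proj) (D : Div K) : H0 (bar M D) = (M.H0 D).restrictScalars ℂ :=
  Submodule.ext fun _ => mem_H0.trans (sec_bar hM)

theorem h0_bar (hM : M.Proj) (D : Div K) : h0 (bar M D) = F5.h0 M D := by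
  rw [h0, H0_bar hM]; rfl

theorem Trc.sec_iff (hM : M.Proj) (h : Trc M Z D) (e : bar M D ≤ Z) : Sec Z f ↔ f ∈ M.H0 D :=
  ⟨h.sec hM, fun k => (sec_of_mem hM k).mono e⟩

theorem Trc.H0_le (hM : M.Proj) (h : Trc M Z D) : H0 Z ≤ (M.H0 D).restrictScalars ℂ :=
  fun _ k => h.sec hM (mem_H0.1 k)

theorem Trc.H0_eq (hM : M.Proj) (h : Trc M Z D) (e : bar M D ≤ Z) :
    H0 Z = (M.H0 D).restrictScalars ℂ := Submodule.ext fun _ => mem_H0.trans (h.sec_iff hM e)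

theorem Trc.h0_eq (hM : M.Proj) (h : Trc M Z D) (e : bar M D ≤ Z) : h0 Z = F5.h0 M D := by
  rw [h0, h.H0_eq hM e]; rfl

theorem Fs.fin (hM : M.Proj) (h : Fs M Z) : Module.Finite ℂ (H0 Z) :=
  let ⟨D, k⟩ := h.trc
  have := (pc hM).fin D
  Module.Finite.of_injective (Submodule.inclusion (k.H0_le hM)) (Submodule.inclusion_injective _)

theorem fin_car (hK : FF K n) {β : BD K} (h : β ∈ Car K) : Module.Finite ℂ (H0 β) :=
  let ⟨_, hM⟩ := Bm.exists_mdl hK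
  (fs_car hM h).fin hM

/-! ### real linear systems -/

theorem rep_bar (hM : M.Proj) (h : F5.Rep M D G) : Rep (bar M D) (bar M G) :=
  ⟨bar_nonneg hM h.1, map_sub (bar M) G D ▸ bar_prR hM h.2⟩

theorem Trc.rep (hM : M.Proj) (h : Trc M Z D) (e : Rep Z Z') :
    ∃ G, F5.Rep M D G ∧ Trc M Z' G ∧ Z' - Z = bar M G - bar M D := by
  obtain ⟨E, a, b⟩ := prn_bar hM e.2
  have k : Trc M Z' (D + E) := by
    rw [show Z' = Z + bar M E by rw [b]; abel]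
    exact h.add (trc_bar hM (F5.prR_dv a))
  exact ⟨D + E, ⟨k.nonneg hM e.1, by simpa using a⟩, k, by rw [map_add, b]; abel⟩

theorem rep_of_bar (hM : M.Proj) (hD : M.Dv D) (e : Rep (bar M D) Z) :
    ∃ G, F5.Rep M D G ∧ Z = bar M G :=
  let ⟨G, a, _, b⟩ := (trc_bar hM hD).rep hM e
  ⟨G, a, sub_left_injective b⟩

theorem Trc.eff (hM : M.Proj) (h : Trc M Z D) (e : Eff Z) : F5.Eff M D :=
  let ⟨_, a⟩ := e
  let ⟨G, b, _⟩ := h.rep hM a
  ⟨G, b⟩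

theorem eff_of (hM : M.Proj) (h : F5.Eff M D) : Eff (bar M D) :=
  let ⟨_, a⟩ := h
  ⟨_, rep_bar hM a⟩

theorem eff_bar (hM : M.Proj) (hD : M.Dv D) : Eff (bar M D) ↔ F5.Eff M D :=
  ⟨(trc_bar hM hD).eff hM, eff_of hM⟩

theorem Trc.eff_iff (hM : M.Proj) (h : Trc M Z D) (e : bar M D ≤ Z) : Eff Z ↔ F5.Eff M D :=
  ⟨h.eff hM, fun ⟨G, a⟩ => ⟨bar M G + (Z - bar M D),
    add_nonneg (bar_nonneg hM a.1) (sub_nonneg.2 e), by
      rw [show bar M G + (Z - bar M D) - Z = bar M G - bar M D by abel]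
      exact (rep_bar hM a).2⟩⟩

end Vale.Agent.P287D.Ba
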