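import Vale.Agent.P287D.Ba.Sec
import Vale.Agent.P287D.Va.Cone
import Vale.Agent.P287D.I.Prj

/-!
# P287D: the restriction of Cartier b-divisors to a prime divisor
-/

set_option linter.all false

open Set
open Vale.Agent.P297 (Place)
open Vale.Agent.P297Z
open Vale.Agent.P277Z Vale.Agent.P277Z.FI Vale.Agent.P277Z.F5

noncomputable section

namespace Vale.Agent.P287D

variable {n : ℕ} {K : Type} [Field K] [Algebra ℂ K]

namespace Ba

open Bm (subM rd_zero_iff)

theorem div_t {M : Mdl n 0 K} (hM : M.Proj) {P : Pl K} (h : M.Pr P.toPlace) :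
    M.div P.t P.toPlace = 1 := by rw [div_apply (hloc hM) _ h, P.ord_t, Int.cast_one]

/-- the system `s` generates `D` everywhere -/
def Gs (M : Mdl n 0 K) (s : Finset K) (D : Div K) : Prop := (∀ f ∈ s, f ∈ M.H0 D) ∧
  ∀ x, ∃ f ∈ s, f ≠ 0 ∧ ∀ Q, M.On x Q → (Q.ord f : ℝ) + D Q = 0

theorem Gs.mx {M : Mdl n 0 K} (hM : M.Proj) {s : Finset K} {D : Div K} (h : Gs M s D) :
    mx s = bar M D := mx_free hM h.1 h.2

/-- a model on which `P` is smooth and finitely many systems are principal -/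
theorem exists_prin {M : Mdl n 0 K} (hM : M.Proj) (P : Pl K) (T : Finset (Finset K)) :
    ∃ M' : Mdl n 0 K, Nonempty (Mod M' M) ∧ M'.Proj ∧ M'.Snc {P.toPlace} ∧
      ∀ s ∈ T, Nz s → Prin M' s := by
  classical
  obtain ⟨M', m, h1, h2, h3⟩ := Bm.plm_good hM (finite_singleton P) finite_empty
    (fun j => ((T.filter Nz).equivFin.symm j : Finset K))
    fun j => (Finset.mem_filter.1 ((T.filter Nz).equivFin.symm j).2).2
  refine ⟨M', m, h1, Bm.snc_of_good h3 (by rintro _ rfl; exact .inl (.inl ⟨P, rfl, rfl⟩))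
    (by rintro _ rfl; exact h2 P rfl), fun s hs k x => ?_⟩
  simpa using (h3 x).1 ((T.filter Nz).equivFin ⟨s, Finset.mem_filter.2 ⟨hs, k⟩⟩)

theorem rs_of_not (P : Pl K) {w : Finset K} (h : ¬ Nz w) : ¬ Nz (P.rs w) := fun ⟨u, hu, u0⟩ => by
  classical
  obtain ⟨g, hg, rfl⟩ := Finset.mem_image.1 hu
  refine h ⟨g, hg, fun e => u0 ?_⟩
  rw [e, zero_mul]
  exact (rd_zero_iff P (zero_mem _)).2 (.inl rfl)

/-- the restriction, on the level of the combinations of systems -/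
def rl (P : Pl K) : (Finset K →₀ ℝ) →ₗ[ℝ] BD P.κ :=
  Finsupp.linearCombination ℝ fun s => mx (P.rs s)

section sub

variable {M : Mdl (n + 1) 0 K} {P : Pl K} {S : Mdl n 0 P.κ} {s : Sub S M P.toPlace}
  {D : Div K} {w : Finset K}

theorem Gs.res (hM : M.Proj) (hS : S.Proj) (e : s.res = P.rd) (hR : Rst s)
    (ht : M.div P.t P.toPlace = 1) (h : Gs M w D) : Gs S (P.rs w) (rsn hR ht D) := by
  classical
  have kD : D P.toPlace = P.mz w := (bar_pr hM (pr_sub s) D).symm.trans (congrFun (h.mx hM) P).symm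
  refine ⟨fun u hu => ?_, fun y => ?_⟩
  · obtain ⟨g, hg, rfl⟩ := Finset.mem_image.1 hu
    rw [← e]
    refine hR.sec _ (nr_self ht D) _ ?_
    rw [nr_apply, kD]
    exact mul_zpow_mem (hloc hM) (h.1 g hg) P.t_ne _
  obtain ⟨f, h1, h2, h4⟩ := h.2 (ip s y)
  have t0 := zpow_ne_zero (P.mz w) P.t_ne
  have lg : Lift.LG M (Lift.pt s y) (nr M P.toPlace P.t (-D)) (f * P.t ^ P.mz w) :=
    ⟨mul_ne_zero h2 t0, fun R hR => by
      have := h4 R hR
      rw [nr_apply, Pl.ord_mul _ h2 t0, Pl.ord_zpow, Finsupp.sub_apply, Finsupp.smul_apply,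
        div_apply (hloc hM) _ ⟨_, hR⟩, Finsupp.neg_apply, Finsupp.neg_apply, kD, smul_eq_mul]
      push_cast
      linarith⟩
  have l2 := lg.res (hloc hM) (hloc hS) hR (nr_self ht _)
  rw [← rsn_apply hR ht, map_neg, e] at l2
  exact ⟨_, Finset.mem_image_of_mem _ h1, l2.1, fun Q hQ => by
    rw [l2.2 Q hQ, Finsupp.neg_apply, neg_add_cancel]⟩

theorem exists_dv (hM : M.Proj) (hS : S.Proj) (e : s.res = P.rd) (hR : Rst s)
    (ht : M.div P.t P.toPlace = 1) {l : Finset K →₀ ℝ} (h : ∀ w ∈ l.support, Nz w → Prin M w) :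
    ∃ D, M.Dv D ∧ cmb l = bar M D ∧ rl P l = bar S (rsn hR ht D) := by
  have k : ∀ w ∈ l.support, ∃ D, M.Dv D ∧ mx w = bar M D ∧ mx (P.rs w) = bar S (rsn hR ht D) :=
    fun w hw => by
      by_cases a : Nz w
      · have g : Gs M w (sys M w) := ⟨fun _ => mem_sys hM, prin_free hM (h w hw a)⟩
        exact ⟨_, dv_sys w, g.mx hM, (g.res hM hS e hR ht).mx hS⟩
      · exact ⟨0, FI.dv_zero, by rw [mx_of_not a, map_zero],
          by rw [mx_of_not (rs_of_not P a), map_zero, map_zero]⟩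
  choose! D h1 h2 h3 using k
  refine ⟨∑ w ∈ l.support, l w • D w, dv_sum _ fun w hw => FI.dv_smul (h1 w hw) _, ?_, ?_⟩
  · rw [cmb_sum, map_sum]
    exact Finset.sum_congr rfl fun w hw => by rw [map_smul, h2 w hw]
  · rw [map_sum, map_sum]
    exact Finset.sum_congr rfl fun w hw => by rw [map_smul, map_smul, ← h3 w hw]; rfl

end sub

theorem rl_nonneg (h : FF K (n + 1)) (P : Pl K) {l : Finset K →₀ ℝ} (h0 : 0 ≤ cmb l)
    (hP : cmb l P = 0) : 0 ≤ rl P l := by
  obtain ⟨M₀, h₀⟩ := Bm.exists_mdl h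
  obtain ⟨M, -, hM, h1, h2⟩ := exists_prin h₀ P l.support
  obtain ⟨S, s, hS, e, hR⟩ := Bm.sub hM P h1
  have hp := h1.1 _ rfl
  obtain ⟨D, k1, k2, k3⟩ := exists_dv hM hS e hR (div_t hM hp) h2
  rw [k2] at h0 hP
  rw [k3]
  exact bar_nonneg hS (I.r_nonneg (subM hM hp s hS hR) (nonneg_of_bar hM k1 h0)
    ((bar_pr hM hp D).symm.trans hP))

theorem ff_succ (h : FF K n) (P : Pl K) : ∃ m, n = m + 1 := by
  cases n with
  | zero => exact (Bm.no_pl h P).elim
  | succ m => exact ⟨m, rfl⟩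

theorem res_cmb (h : FF K n) (P : Pl K) (l : Finset K →₀ ℝ) : res P (cmb l) = rl P l := by
  obtain ⟨n, rfl⟩ := ff_succ h P
  have k : ∃ l', cmb l = cmb l' := ⟨l, rfl⟩
  have a : ∀ l l' : Finset K →₀ ℝ, cmb l = cmb l' → rl P l ≤ rl P l' := fun l l' e => by
    have b : cmb (l' - l) = 0 := by rw [cmb_sub, e, sub_self]
    simpa using rl_nonneg h P b.ge (congrFun b P)
  rw [res, dif_pos k]
  exact le_antisymm (a _ _ k.choose_spec.symm) (a _ _ k.choose_spec)

end Ba

section api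

open Ba

variable (h : FF K n) (P : Pl K) {β γ Λ G : BD K} {f : K}

theorem res_of_not (P : Pl K) (hβ : β ∉ Car K) : res P β = 0 := dif_neg fun e => hβ (mem_Car.2 e)

include h

theorem res_add (hβ : β ∈ Car K) (hγ : γ ∈ Car K) : res P (β + γ) = res P β + res P γ := by
  obtain ⟨l, rfl⟩ := mem_Car.1 hβ
  obtain ⟨l', rfl⟩ := mem_Car.1 hγ
  rw [← cmb_add, res_cmb h, res_cmb h, res_cmb h, map_add]

theorem res_smul (c : ℝ) (hβ : β ∈ Car K) : res P (c • β) = c • res P β := by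
  obtain ⟨l, rfl⟩ := mem_Car.1 hβ
  rw [← cmb_smul, res_cmb h, res_cmb h, map_smul]

/-- the restriction as a linear map -/
def resL : Car K →ₗ[ℝ] BD P.κ where
  toFun β := res P β
  map_add' β γ := res_add h P β.2 γ.2
  map_smul' c β := res_smul h P c β.2

theorem res_zero : res P 0 = 0 := (resL h P).map_zero

theorem res_neg (hβ : β ∈ Car K) : res P (-β) = -res P β := (resL h P).map_neg ⟨β, hβ⟩

theorem res_sub (hβ : β ∈ Car K) (hγ : γ ∈ Car K) : res P (β - γ) = res P β - res P γ :=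
  (resL h P).map_sub ⟨β, hβ⟩ ⟨γ, hγ⟩

theorem res_sum {ι : Type*} (T : Finset ι) {b : ι → BD K} (hb : ∀ i ∈ T, b i ∈ Car K) :
    res P (∑ i ∈ T, b i) = ∑ i ∈ T, res P (b i) := by
  classical
  induction T using Finset.induction_on with
  | empty => exact res_zero h P
  | insert a T ha ih =>
    have k := fun i hi => hb i (Finset.mem_insert_of_mem hi)
    rw [Finset.sum_insert ha, Finset.sum_insert ha,
      res_add h P (hb a (Finset.mem_insert_self _ _)) (sum_mem k), ih k]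

theorem res_add_smul (hβ : β ∈ Car K) (hγ : γ ∈ Car K) (c : ℝ) :
    res P (β + c • γ) = res P β + c • res P γ := by
  rw [res_add h P hβ (Submodule.smul_mem _ c hγ), res_smul h P c hγ]

theorem res_sub_smul (hβ : β ∈ Car K) (hγ : γ ∈ Car K) (c : ℝ) :
    res P (β - c • γ) = res P β - c • res P γ := by
  rw [res_sub h P hβ (Submodule.smul_mem _ c hγ), res_smul h P c hγ]

theorem res_mx (s : Finset K) : res P (mx s) = mx (P.rs s) := by
  have := res_cmb h P (Finsupp.single s 1)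
  rwa [cmb_single, one_smul, rl, Finsupp.linearCombination_single, one_smul] at this

theorem res_dv (hf : f ≠ 0) : res P (dv f) = dv (P.rd (f / P.t ^ P.ord f)) := by
  classical
  have k : P.mz {f} = -P.ord f := P.mz_eq (Finset.mem_singleton_self f) hf fun g hg _ =>
    (Finset.mem_singleton.1 hg) ▸ le_rfl
  rw [← neg_neg (dv f), ← mx_single, res_neg h P (mx_mem_Car _), res_mx h, Pl.rs,
    Finset.image_singleton, mx_single, neg_neg, k, zpow_neg, div_eq_mul_inv]

theorem res_dv' (hf : f ≠ 0) {k : ℤ} (e : P.ord f + k = 0) :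
    res P (dv f) = dv (P.rd (f * P.t ^ k)) := by
  rw [res_dv h P hf, eq_neg_of_add_eq_zero_right e, zpow_neg, div_eq_mul_inv]

theorem res_dv_unit (hf : f ≠ 0) (e : P.ord f = 0) : res P (dv f) = dv (P.rd f) := by
  rw [res_dv h P hf, e, zpow_zero, _root_.div_one]

theorem res_dv_t : res P (dv P.t) = 0 := by
  rw [res_dv h P P.t_ne, P.ord_t, zpow_one, div_self P.t_ne, Bm.rd_one, dv_one]

theorem res_car (β : BD K) : res P β ∈ Car P.κ := by
  by_cases hβ : β ∈ Car K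
  · obtain ⟨l, rfl⟩ := mem_Car.1 hβ
    rw [res_cmb h]
    exact sum_mem fun s _ => Submodule.smul_mem _ _ (mx_mem_Car _)
  · rw [res_of_not P hβ]; exact zero_mem _

theorem res_carZ (hβ : β ∈ CarZ K) : res P β ∈ CarZ P.κ := by
  obtain ⟨s, u, -, -, rfl⟩ := mem_CarZ.1 hβ
  rw [res_sub h P (mx_mem_Car _) (mx_mem_Car _), res_mx h, res_mx h]
  exact sub_mem (mx_mem_CarZ _) (mx_mem_CarZ _)

theorem res_carQ (hβ : CarQ β) : CarQ (res P β) :=
  let ⟨m, a, b⟩ := id hβ
  ⟨m, a, res_smul h P m hβ.car ▸ res_carZ h P b⟩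

theorem res_prn (hβ : β ∈ Prn K) : res P β ∈ Prn P.κ :=
  Prn.ind (p := fun β => res P β ∈ Prn P.κ) hβ (fun _ hf => res_dv h P hf ▸ dv_mem_Prn _)
    (fun _ _ a b c d => res_add h P (Prn_le_Car a) (Prn_le_Car b) ▸ add_mem c d)
    fun c _ a b => res_smul h P c (Prn_le_Car a) ▸ Submodule.smul_mem _ c b

theorem res_congr (hβ : β ∈ Car K) (e : γ - β ∈ Prn K) : res P γ - res P β ∈ Prn P.κ := by
  have hγ : γ ∈ Car K := by simpa using add_mem (Prn_le_Car e) hβ
  exact res_sub h P hγ hβ ▸ res_prn h P e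

theorem res_smp (hβ : Smp β) : Smp (res P β) :=
  hβ.ind (p := fun β => Smp (res P β)) (fun s _ => res_mx h P s ▸ smp_mx _)
    (fun _ _ a b c d => res_add h P a.car b.car ▸ c.add d)
    fun c _ a b d => res_smul h P c b.car ▸ d.smul a

theorem res_nef (hβ : Nef β) : Nef (res P β) :=
  let ⟨s, hs⟩ := id hβ
  ⟨P.rs s, fun ε e => by
    rw [← res_mx h, ← res_add_smul h P hβ.car (mx_mem_Car s)]
    exact res_smp h P (hs ε e)⟩

theorem res_num (hβ : Num β) : Num (res P β) :=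
  ⟨res_nef h P hβ.1, res_neg h P hβ.car ▸ res_nef h P hβ.2⟩

theorem res_nonneg (hβ : β ∈ Car K) (h0 : 0 ≤ β) (hP : β P = 0) : 0 ≤ res P β := by
  obtain ⟨n, rfl⟩ := ff_succ h P
  obtain ⟨l, rfl⟩ := mem_Car.1 hβ
  exact res_cmb h P l ▸ rl_nonneg h P h0 hP

theorem res_mono (hβ : β ∈ Car K) (hγ : γ ∈ Car K) (e : β ≤ γ) (hP : β P = γ P) :
    res P β ≤ res P γ :=
  sub_nonneg.1 (res_sub h P hγ hβ ▸ res_nonneg h P (sub_mem hγ hβ) (sub_nonneg.2 e)
    (sub_eq_zero.2 hP.symm))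

/-- **RSEC**: sections restrict to sections -/
theorem res_sec (hβ : β ∈ Car K) {k : ℤ} (hk : β P = k) (hf : Sec β f) :
    Sec (res P β) (P.rd (f * P.t ^ k)) := by
  by_cases f0 : f = 0
  · exact .inl ((Bm.rd_zero_iff P (by rw [f0, zero_mul]; exact zero_mem _)).2
      (.inl (by rw [f0, zero_mul])))
  have a := hf.resolve_left f0
  have b : 0 ≤ P.ord f + k := by
    have : (0 : ℝ) ≤ _ := a P
    rw [Pi.add_apply, hk, dv_apply] at this
    exact_mod_cast this
  have t0 := mul_ne_zero f0 (zpow_ne_zero k P.t_ne)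
  rcases b.eq_or_lt with b | c
  · right
    rw [← res_dv' h P f0 b.symm, ← res_add h P (dv_mem_Car f) hβ]
    refine res_nonneg h P (add_mem (dv_mem_Car f) hβ) a ?_
    rw [Pi.add_apply, hk, dv_apply]
    exact_mod_cast b.symm
  · exact .inl ((Bm.rd_zero_iff P ((Pl.ord_nonneg_iff _ t0).1 (P.ord_mul_t f0 k ▸ b))).2
      (.inr (P.ord_mul_t f0 k ▸ c)))

theorem res_sec0 (hβ : β ∈ Car K) (hP : β P = 0) (hf : Sec β f) : Sec (res P β) (P.rd f) := by
  simpa using res_sec h P hβ (k := 0) (by simpa using hP) hf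

theorem res_rep (hβ : β ∈ Car K) (hG : Rep β G) (hP : G P = 0) : Rep (res P β) (res P G) :=
  ⟨res_nonneg h P (hG.car hβ) hG.1 hP, res_congr h P hβ hG.2⟩

theorem res_eff (hβ : β ∈ Car K) (hG : Rep β G) (hP : G P = 0) : Eff (res P β) :=
  (res_rep h P hβ hG hP).eff

omit h in
theorem Ba.car_of_dsc (e : Dsc Λ β) : Λ ∈ Car K ∧ β ∈ Car K := by
  obtain ⟨ε, h0, a, b⟩ := e
  constructor
  · have := (Car K).smul_mem (1 / 2 : ℝ) (add_mem a.car b.car)
    rwa [show (1 / 2 : ℝ) • (Λ + ε • β + (Λ - ε • β)) = Λ by module] at this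
  · have := (Car K).smul_mem (2 * ε)⁻¹ (sub_mem a.car b.car)
    rwa [show Λ + ε • β - (Λ - ε • β) = (2 * ε) • β by module,
      inv_smul_smul₀ (by positivity)] at this

theorem res_dsc (e : Dsc Λ β) : Dsc (res P Λ) (res P β) :=
  let ⟨a, b⟩ := car_of_dsc e
  let ⟨ε, h0, c, d⟩ := e
  ⟨ε, h0, res_add_smul h P a b ε ▸ res_smp h P c, res_sub_smul h P a b ε ▸ res_smp h P d⟩

theorem res_ampOn (e : AmpOn Λ β) : AmpOn (res P Λ) (res P β) :=
  let ⟨a, b⟩ := car_of_dsc e.1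
  let ⟨ε, h0, c⟩ := e.2
  ⟨res_dsc h P e.1, ε, h0, res_sub_smul h P b a ε ▸ res_smp h P c⟩

end api

namespace Ba

variable {M : Mdl (n + 1) 0 K} {P : Pl K} {S : Mdl n 0 P.κ} {s : Sub S M P.toPlace}

/-- **The restriction is the restriction on the models.** -/
theorem res_bar (hM : M.Proj) (hS : S.Proj) (e : s.res = P.rd) (hR : Rst s)
    (ht : M.div P.t P.toPlace = 1) (D : Div K) : res P (bar M D) = bar S (rsn hR ht D) := by
  have h := Bm.ff hM
  have k : ∀ E ∈ Submodule.span ℝ {H | Pol M H}, res P (bar M E) = bar S (rsn hR ht E) :=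
    fun E hE => by
      induction hE using Submodule.span_induction with
      | mem H hH =>
        obtain ⟨w, hw⟩ := LrH.free_sys (hloc hM) hH.free
        rw [← Gs.mx hM hw, res_mx h, (Gs.res hM hS e hR ht hw).mx hS]
      | zero => rw [map_zero, map_zero, map_zero, P287D.res_zero h]
      | add a b _ _ c d =>
        rw [map_add, map_add, map_add, P287D.res_add h P (bar_car hM a) (bar_car hM b), c, d]
      | smul c a _ d => rw [map_smul, map_smul, map_smul, res_smul h P c (bar_car hM a), d]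
  rw [← bar_tr hM, k _ (I.span_pol (pc hM) (dv_tr D))]
  exact congrArg _ (I.r_tr (Bm.subM hM (pr_sub s) s hS hR) D)

theorem res_bar' (hM : M.Proj) (hS : S.Proj) (e : s.res = P.rd) (hR : Rst s)
    (hp : M.Pr P.toPlace) (D : Div K) :
    res P (bar M D) = bar S ((Bm.subM hM hp s hS hR).r D) := res_bar hM hS e hR _ D

theorem res_bar0 (hM : M.Proj) (hS : S.Proj) (e : s.res = P.rd) (hR : Rst s) {D : Div K}
    (hD : D P.toPlace = 0) : res P (bar M D) = bar S (s.rs D) := by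
  rw [res_bar hM hS e hR (div_t hM (pr_sub s)), rsn_of_zero _ _ hD]

end Ba

end Vale.Agent.P287D
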